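import Crest.Agent.N41.ES.Res

/-!
# Row 41, part B: lifts of finite sets of integers to `∏ ZMod (n i)`
-/

set_option autoImplicit false
open Finset
open scoped BigOperators

namespace Crest.Agent.N41.ES

section Prod
variable {ι : Type} [Fintype ι] [DecidableEq ι] {V : ι → Type} [∀ i, Fintype (V i)]

/-- expectation of a product of functions of single coordinates -/
lemma expect_prod (φ : ∀ i, V i → ℝ) : 𝔼 x : ∀ i, V i, ∏ i, φ i (x i) = ∏ i, 𝔼 t, φ i t := by
  simp only [Fintype.expect_eq_sum_div_card, Finset.prod_div_distrib, Fintype.card_pi,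
    Nat.cast_prod]
  rw [Finset.prod_univ_sum, Fintype.piFinset_univ]

variable [∀ i, DecidableEq (V i)]

omit [∀ i, Fintype (V i)] in
lemma ind_eq_prod (S : Finset ι) (s x : ∀ i, V i) :
    ind S s x = ∏ i, if i ∈ S then (if x i = s i then 1 else 0) else 1 := by
  unfold ind
  split_ifs with h
  · exact (Finset.prod_eq_one fun i _ => by by_cases hi : i ∈ S <;> simp [hi, h i]).symm
  · push Not at h
    obtain ⟨i, hi, hx⟩ := h
    exact (Finset.prod_eq_zero (Finset.mem_univ i) (by simp [hi, hx])).symm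

omit [∀ i, Fintype (V i)] in
lemma depOn_ind (S : Finset ι) (s : ∀ i, V i) : DepOn S (ind S s) := by
  intro x y h
  unfold ind
  exact if_congr (forall₂_congr fun i hi => by rw [h i hi]) rfl rfl

omit [∀ i, Fintype (V i)] in
lemma ind_nonneg (S : Finset ι) (s x : ∀ i, V i) : 0 ≤ ind S s x := by
  unfold ind; split_ifs <;> norm_num

omit [∀ i, Fintype (V i)] in
lemma ind_le_one (S : Finset ι) (s x : ∀ i, V i) : ind S s x ≤ 1 := by
  unfold ind; split_ifs <;> norm_num

lemma expect_ind [∀ i, Nonempty (V i)] (S : Finset ι) (s : ∀ i, V i) :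
    𝔼 x, ind S s x = (∏ i ∈ S, (Fintype.card (V i) : ℝ))⁻¹ := by
  simp only [ind_eq_prod]
  rw [expect_prod fun i t => if i ∈ S then (if t = s i then 1 else 0) else 1,
    ← Finset.prod_inv_distrib, ← Finset.prod_ite_mem_eq S]
  refine Finset.prod_congr rfl fun i _ => ?_
  split_ifs with hi
  · simp
  · simp

end Prod

section Lift
variable {ι : Type} [Fintype ι] {n : ι → ℕ}

open Classical in
lemma lift_eq_sum (A : Finset ℤ) (L : ℝ) (x : ∀ i, ZMod (n i)) :
    lift n A L x = (qq n univ : ℝ) / L * ∑ a ∈ A, if red n a = x then (1 : ℝ) else 0 := by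
  simp [lift]

lemma lift_empty (L : ℝ) : lift n ∅ L = fun _ => 0 := by
  funext x; simp [lift]

lemma lift_nonneg (A : Finset ℤ) {L : ℝ} (hL : 0 ≤ L) (x : ∀ i, ZMod (n i)) :
    0 ≤ lift n A L x := by
  unfold lift; positivity

lemma lift_scale (A : Finset ℤ) (L : ℝ) {L' : ℝ} (hL' : L' ≠ 0) :
    lift n A L = fun x => L' / L * lift n A L' x := by
  funext x; unfold lift; field_simp

lemma lift_div (A : Finset ℤ) (L c : ℝ) : lift n A (L / c) = fun x => c * lift n A L x := by
  funext x; unfold lift; rw [div_div_eq_mul_div]; ring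

lemma lift_union {A B : Finset ℤ} (h : Disjoint A B) (L : ℝ) :
    lift n (A ∪ B) L = fun x => lift n A L x + lift n B L x := by
  funext x; simp only [lift_eq_sum, Finset.sum_union h, mul_add]

/-- splitting a lift into the fibres of a map -/
lemma lift_fiber {κ : Type*} [DecidableEq κ] (A : Finset ℤ) (L : ℝ) (φ : ℤ → κ) (t : Finset κ)
    (h : ∀ a ∈ A, φ a ∈ t) :
    lift n A L = fun x => ∑ c ∈ t, lift n (A.filter fun a => φ a = c) L x := by
  funext x
  simp only [lift_eq_sum, ← Finset.mul_sum]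
  rw [Finset.sum_fiberwise_of_maps_to h]

omit [Fintype ι] in
lemma red_add (a b : ℤ) : red n (a + b) = red n a + red n b := by
  funext i; simp [red]

omit [Fintype ι] in
lemma red_sub (a b : ℤ) : red n (a - b) = red n a - red n b := by
  funext i; simp [red]

variable [DecidableEq ι] [∀ i, NeZero (n i)]

omit [Fintype ι] [DecidableEq ι] in
lemma one_le_n (i : ι) : 1 ≤ n i := NeZero.one_le

omit [Fintype ι] [DecidableEq ι] in
lemma qq_pos (T : Finset ι) : (0 : ℝ) < qq n T := by exact_mod_cast one_le_qq one_le_n T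

lemma card_G : Fintype.card (∀ i, ZMod (n i)) = qq n univ := by
  simp [Fintype.card_pi, ZMod.card, qq]

/-- integration against a lift -/
lemma expect_lift_mul (A : Finset ℤ) (L : ℝ) (H : (∀ i, ZMod (n i)) → ℝ) :
    𝔼 x, lift n A L x * H x = 1 / L * ∑ a ∈ A, H (red n a) := by
  classical
  rw [Fintype.expect_eq_sum_div_card, card_G]
  simp only [lift_eq_sum, mul_assoc, ← Finset.mul_sum, Finset.sum_mul]
  rw [Finset.sum_comm]
  simp only [ite_mul, one_mul, zero_mul, Finset.sum_ite_eq, Finset.mem_univ, if_true]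
  have := (qq_pos (n := n) univ).ne'
  field_simp

lemma expect_lift (A : Finset ℤ) (L : ℝ) : 𝔼 x, lift n A L x = A.card / L := by
  have := expect_lift_mul (n := n) A L fun _ => 1
  simp only [mul_one, Finset.sum_const, nsmul_eq_mul] at this
  rw [this]; ring

/-- the bilinear form of a convolution kernel on two lifts -/
lemma expect_lift_lift (A B : Finset ℤ) (L L' : ℝ) (K : (∀ i, ZMod (n i)) → ℝ) :
    𝔼 x, 𝔼 y, lift n A L x * lift n B L' y * K (y - x) =
      1 / (L * L') * ∑ a ∈ A, ∑ b ∈ B, K (red n (b - a)) := by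
  have h1 : ∀ x : ∀ i, ZMod (n i), 𝔼 y, lift n A L x * lift n B L' y * K (y - x) =
      lift n A L x * (1 / L' * ∑ b ∈ B, K (red n b - x)) := fun x => by
    rw [← expect_lift_mul B L' fun y => K (y - x), Finset.mul_expect]
    exact Finset.expect_congr rfl fun y _ => by ring
  simp only [h1]
  rw [expect_lift_mul A L fun x => 1 / L' * ∑ b ∈ B, K (red n b - x), ← Finset.mul_sum]
  simp only [red_sub]
  ring

omit [∀ i, NeZero (n i)] in
lemma lift_mul_ind (A : Finset ℤ) (L : ℝ) (T : Finset ι) (s x : ∀ i, ZMod (n i)) :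
    lift n A L x * ind T s x =
      lift n (A.filter fun a => ∀ i ∈ T, (a : ZMod (n i)) = s i) L x := by
  classical
  simp only [lift_eq_sum, Finset.sum_filter, mul_assoc, Finset.sum_mul]
  congr 1
  refine Finset.sum_congr rfl fun a _ => ?_
  by_cases h : red n a = x
  · subst h; simp only [ind, red, if_true, one_mul]; congr
  · simp [h]

/-- conditional expectations of a lift -/
lemma avg_lift (S : Finset ι) (A : Finset ℤ) (L : ℝ) (x : ∀ i, ZMod (n i)) :
    avg S (lift n A L) x =
      (qq n Sᶜ : ℝ) / L * (A.filter fun a => ∀ i, i ∉ S → (a : ZMod (n i)) = x i).card := by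
  classical
  have h1 : ∀ a : ℤ, 𝔼 y : ∀ i, ZMod (n i), (if red n a = S.piecewise y x then (1 : ℝ) else 0) =
      (if ∀ i, i ∉ S → (a : ZMod (n i)) = x i then (1 : ℝ) else 0) * (qq n S : ℝ)⁻¹ := fun a => by
    have h2 := expect_ind S (red n a)
    simp only [ZMod.card] at h2
    rw [qq, Nat.cast_prod, ← h2, Finset.mul_expect]
    refine Finset.expect_congr rfl fun y _ => ?_
    have h3 : red n a = S.piecewise y x ↔
        (∀ i, i ∉ S → (a : ZMod (n i)) = x i) ∧ ∀ i ∈ S, y i = red n a i := by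
      rw [funext_iff]
      constructor
      · intro h
        exact ⟨fun i hi => by simpa [Finset.piecewise, hi, red] using h i,
          fun i hi => by simpa [Finset.piecewise, hi] using (h i).symm⟩
      · rintro ⟨h, h'⟩ i
        by_cases hi : i ∈ S
        · simp [Finset.piecewise, hi, h' i hi]
        · simp [Finset.piecewise, hi, red, h i hi]
    simp only [h3, ind, ite_and]
    split_ifs <;> simp
  unfold avg
  simp only [lift_eq_sum, ← Finset.mul_expect]
  rw [Finset.expect_sum_comm]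
  simp only [h1, ← Finset.sum_mul, Finset.sum_boole]
  have h4 : (qq n univ : ℝ) = qq n S * qq n Sᶜ := by
    rw [← Nat.cast_mul, ← qq_union n disjoint_compl_right, Finset.union_compl]
  have := (qq_pos (n := n) S).ne'
  rw [h4]; field_simp

lemma avg_compl_lift (U : Finset ι) (A : Finset ℤ) (L : ℝ) (x : ∀ i, ZMod (n i)) :
    avg Uᶜ (lift n A L) x =
      (qq n U : ℝ) / L * (A.filter fun a => ∀ i ∈ U, (a : ZMod (n i)) = x i).card := by
  rw [avg_lift, compl_compl]
  simp only [Finset.mem_compl, not_not]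

/-- a restriction of a lift is a lift of a residue class -/
lemma res_lift (U : Finset ι) (s : ∀ i, ZMod (n i)) (A : Finset ℤ) (L : ℝ) :
    res U s (lift n A L) =
      avg U (lift n (A.filter fun a => ∀ i ∈ U, (a : ZMod (n i)) = s i) (L / qq n U)) := by
  classical
  funext x
  rw [avg_lift, Finset.filter_filter]
  have h4 : (qq n univ : ℝ) = qq n U * qq n Uᶜ := by
    rw [← Nat.cast_mul, ← qq_union n disjoint_compl_right, Finset.union_compl]
  unfold res lift
  rw [h4, div_div_eq_mul_div, mul_comm (qq n Uᶜ : ℝ)]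
  congr 3
  refine Finset.filter_congr fun a _ => ?_
  rw [funext_iff]
  constructor
  · intro h
    exact ⟨fun i hi => by simpa [Finset.piecewise, hi, red] using h i,
      fun i hi => by simpa [Finset.piecewise, hi, red] using h i⟩
  · rintro ⟨h, h'⟩ i
    by_cases hi : i ∈ U
    · simp [Finset.piecewise, hi, red, h i hi]
    · simp [Finset.piecewise, hi, red, h' i hi]

lemma proj_res_lift {F : Finset (Finset ι)} {U : Finset ι} (hF : ∀ T ∈ F, Disjoint T U)
    (s : ∀ i, ZMod (n i)) (A : Finset ℤ) (L : ℝ) :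
    proj F (res U s (lift n A L)) =
      proj F (lift n (A.filter fun a => ∀ i ∈ U, (a : ZMod (n i)) = s i) (L / qq n U)) := by
  rw [res_lift, proj_avg_of_disjoint hF]

/-- rescaling: the lift of `c + μ A` is the lift of `A` composed with affine maps -/
lemma avg_lift_image (S : Finset ι) (c μ : ℤ) (hμ : μ ≠ 0)
    (hu : ∀ i, i ∉ S → IsUnit (μ : ZMod (n i))) (A : Finset ℤ) (L : ℝ)
    (x x' : ∀ i, ZMod (n i)) (hx : ∀ i, i ∉ S → x' i = c + μ * x i) :
    avg S (lift n (A.image fun a => c + μ * a) L) x' = avg S (lift n A L) x := by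
  rw [avg_lift, avg_lift, Finset.filter_image, Finset.card_image_of_injective]
  · congr 3
    refine Finset.filter_congr fun a _ => forall₂_congr fun i hi => ?_
    rw [hx i hi]
    push_cast
    rw [add_right_inj, (hu i hi).mul_right_inj]
  · intro a b hab
    exact mul_left_cancel₀ hμ (add_left_cancel hab)

/-- the affine bijection `t ↦ c + μ t` (the identity if `μ` is not a unit) -/
noncomputable def aff (m : ℕ) (c μ : ℤ) : ZMod m ≃ ZMod m := by
  classical
  exact if h : IsUnit (μ : ZMod m) then (Units.mulLeft h.unit).trans (Equiv.addLeft (c : ZMod m))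
    else Equiv.refl _

lemma aff_apply {m : ℕ} (c : ℤ) {μ : ℤ} (h : IsUnit (μ : ZMod m)) (t : ZMod m) :
    aff m c μ t = c + μ * t := by
  simp [aff, h]

lemma avg_lift_image_aff (S : Finset ι) (c μ : ℤ) (hμ : μ ≠ 0)
    (hu : ∀ i, i ∉ S → IsUnit (μ : ZMod (n i))) (A : Finset ℤ) (L : ℝ) :
    (fun x : ∀ i, ZMod (n i) =>
      avg S (lift n (A.image fun a => c + μ * a) L) fun i => aff (n i) c μ (x i)) =
      avg S (lift n A L) :=
  funext fun x => avg_lift_image S c μ hμ hu A L x _ fun i hi => aff_apply c (hu i hi) _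

lemma proj_lift_image_aff {F : Finset (Finset ι)} {S : Finset ι} (hF : ∀ T ∈ F, Disjoint T S)
    (c μ : ℤ) (hμ : μ ≠ 0) (hu : ∀ i, i ∉ S → IsUnit (μ : ZMod (n i))) (A : Finset ℤ) (L : ℝ) :
    (fun x : ∀ i, ZMod (n i) =>
      proj F (lift n (A.image fun a => c + μ * a) L) fun i => aff (n i) c μ (x i)) =
      proj F (lift n A L) := by
  rw [← proj_avg_of_disjoint hF (lift n A L), ← avg_lift_image_aff S c μ hμ hu A L,
    proj_comp_equiv, proj_avg_of_disjoint hF]

end Lift

section Classes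

/-- a set contained in a residue class is the image of its rescaling -/
lemma image_div_eq {A : Finset ℤ} {c μ : ℤ} (h : ∀ a ∈ A, μ ∣ a - c) :
    (A.image fun a => (a - c) / μ).image (fun a => c + μ * a) = A := by
  rw [Finset.image_image]
  conv_rhs => rw [← Finset.image_id (s := A)]
  refine Finset.image_congr fun a ha => ?_
  simp only [Function.comp, id]
  rw [Int.mul_ediv_cancel' (h a ha)]; ring

lemma inI_image_div {A : Finset ℤ} {c μ : ℤ} (hμ : 0 < μ) (h : ∀ a ∈ A, μ ∣ a - c) {x₀ L : ℝ}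
    (hA : InI A x₀ L) : InI (A.image fun a => (a - c) / μ) ((x₀ - c) / μ) (L / μ) := by
  intro b hb
  obtain ⟨a, ha, rfl⟩ := Finset.mem_image.1 hb
  have hμ' : (0 : ℝ) < μ := by exact_mod_cast hμ
  have h1 : (((a - c) / μ : ℤ) : ℝ) = (a - c) / μ := by
    rw [Int.cast_div (h a ha) hμ'.ne']; push_cast; rfl
  rw [h1, ← add_div, div_le_div_iff_of_pos_right hμ', div_lt_div_iff_of_pos_right hμ']
  constructor <;> linarith [(hA a ha).1, (hA a ha).2]

lemma InI.subset_Ico {A : Finset ℤ} {x₀ L : ℝ} (hA : InI A x₀ L) :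
    A ⊆ Finset.Ico ⌈x₀⌉ (⌈x₀⌉ + ⌈L⌉₊) := by
  intro a ha
  rw [Finset.mem_Ico]
  refine ⟨Int.ceil_le.2 (hA a ha).1, ?_⟩
  have h1 := Int.le_ceil x₀
  have h2 := Nat.le_ceil L
  have : (a : ℝ) < ((⌈x₀⌉ + ⌈L⌉₊ : ℤ) : ℝ) := by push_cast; linarith [(hA a ha).2]
  exact_mod_cast this

lemma card_le_of_inI {A : Finset ℤ} {x₀ L : ℝ} (hA : InI A x₀ L) (hL : 0 ≤ L) :
    (A.card : ℝ) ≤ L + 1 := by
  have h1 := Finset.card_le_card (InI.subset_Ico hA)
  rw [Int.card_Ico, add_sub_cancel_left, Int.toNat_natCast] at h1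
  exact (Nat.cast_le.2 h1).trans (Nat.ceil_lt_add_one hL).le

/-- counting a residue class in an interval -/
lemma card_le_of_class {A : Finset ℤ} {c μ : ℤ} (hμ : 0 < μ) (h : ∀ a ∈ A, μ ∣ a - c) {x₀ L : ℝ}
    (hA : InI A x₀ L) (hL : 0 ≤ L) : (A.card : ℝ) ≤ L / μ + 1 := by
  have h1 := card_le_of_inI (inI_image_div hμ h hA) (by positivity)
  refine le_trans ?_ h1
  conv_lhs => rw [← image_div_eq h]
  exact_mod_cast Finset.card_image_le

variable {ι : Type} {n : ι → ℕ}

lemma pairwise_coprime (hp : ∀ i, (n i).Prime) (hinj : Function.Injective n) :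
    Pairwise fun i j => Nat.Coprime (n i) (n j) :=
  fun i j hij => (Nat.coprime_primes (hp i) (hp j)).2 fun h => hij (hinj h)

/-- Chinese remainder theorem, uniqueness -/
lemma qq_dvd_sub (hc : Pairwise fun i j => Nat.Coprime (n i) (n j)) {U : Finset ι} {a b : ℤ}
    (h : ∀ i ∈ U, (a : ZMod (n i)) = b) : (qq n U : ℤ) ∣ b - a := by
  rw [qq, Nat.cast_prod]
  refine Finset.prod_dvd_of_coprime (fun i _ j _ hij => ?_) fun i hi => ?_
  · exact Nat.isCoprime_iff_coprime.2 (hc hij)
  · exact (ZMod.intCast_eq_intCast_iff_dvd_sub a b (n i)).1 (h i hi)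

lemma intCast_eq_of_qq_dvd {U : Finset ι} {a b : ℤ} (h : (qq n U : ℤ) ∣ b - a) {i : ι}
    (hi : i ∈ U) : (a : ZMod (n i)) = b :=
  (ZMod.intCast_eq_intCast_iff_dvd_sub a b (n i)).2
    ((Int.natCast_dvd_natCast.2 (dvd_qq n hi)).trans h)

lemma coprime_qq {W : ℕ} {U : Finset ι} (hW : ∀ i ∈ U, Nat.Coprime W (n i)) :
    Nat.Coprime W (qq n U) := Nat.Coprime.prod_right hW

lemma mul_qq_dvd_sub (hc : Pairwise fun i j => Nat.Coprime (n i) (n j)) {W : ℕ} {U : Finset ι}
    (hW : ∀ i ∈ U, Nat.Coprime W (n i)) {a b : ℤ} (hab : a ≡ b [ZMOD W])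
    (h : ∀ i ∈ U, (a : ZMod (n i)) = b) : ((W * qq n U : ℕ) : ℤ) ∣ b - a := by
  push_cast
  exact (Nat.isCoprime_iff_coprime.2 (coprime_qq hW)).mul_dvd hab.dvd (qq_dvd_sub hc h)

lemma isUnit_mul_qq (hc : Pairwise fun i j => Nat.Coprime (n i) (n j)) {W : ℕ} {U : Finset ι}
    {i : ι} (hW : Nat.Coprime W (n i)) (hi : i ∉ U) :
    IsUnit (((W * qq n U : ℕ) : ℤ) : ZMod (n i)) := by
  rw [Int.cast_natCast, ZMod.isUnit_iff_coprime]
  exact Nat.Coprime.mul_left hW (Nat.Coprime.prod_left fun j hj => hc fun h => hi (h ▸ hj))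

end Classes

end Crest.Agent.N41.ES
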