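import Crest.Agent.N41.ES.Defs

/-!
# Row 41, part B: the averaging operators and Möbius inversion on the cube
-/

set_option autoImplicit false
open Finset
open scoped BigOperators

namespace Crest.Agent.N41.ES

/-! ### Möbius inversion on the cube -/
section Mob
variable {ι : Type} [DecidableEq ι]

/-- the Möbius transform on the cube -/
noncomputable def mob (a : Finset ι → ℝ) (T : Finset ι) : ℝ :=
  ∑ U ∈ T.powerset, (-1 : ℝ) ^ (T \ U).card * a U

lemma mob_empty (a : Finset ι → ℝ) : mob a ∅ = a ∅ := by simp [mob]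

lemma mob_insert (a : Finset ι → ℝ) {i : ι} {T : Finset ι} (hi : i ∉ T) :
    mob a (insert i T) = mob (fun U => a (insert i U)) T - mob a T := by
  unfold mob
  rw [Finset.sum_powerset_insert hi, sub_eq_neg_add, ← Finset.sum_neg_distrib]
  congr 1
  · refine Finset.sum_congr rfl fun U hU => ?_
    have hU' : i ∉ U := fun h => hi (Finset.mem_powerset.1 hU h)
    have : insert i T \ U = insert i (T \ U) := Finset.insert_sdiff_of_notMem _ hU'
    rw [this, Finset.card_insert_of_notMem (by simp [hi])]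
    ring
  · refine Finset.sum_congr rfl fun U hU => ?_
    have : insert i T \ insert i U = T \ U := by
      ext j; simp only [Finset.mem_sdiff, Finset.mem_insert]
      constructor
      · rintro ⟨h1 | h1, h2⟩
        · exact absurd (Or.inl h1) h2
        · exact ⟨h1, fun h => h2 (Or.inr h)⟩
      · rintro ⟨h1, h2⟩
        exact ⟨Or.inr h1, fun h => h.elim (fun h => hi (h ▸ h1)) h2⟩
    rw [this]

lemma mob_congr {a b : Finset ι → ℝ} {T : Finset ι} (h : ∀ U ⊆ T, a U = b U) :
    mob a T = mob b T :=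
  Finset.sum_congr rfl fun U hU => by rw [h U (Finset.mem_powerset.1 hU)]

lemma mob_sub (a b : Finset ι → ℝ) (T : Finset ι) :
    mob (fun U => a U - b U) T = mob a T - mob b T := by
  simp only [mob, mul_sub, Finset.sum_sub_distrib]

lemma mob_mul_const (a : Finset ι → ℝ) (c : ℝ) (T : Finset ι) :
    mob (fun U => a U * c) T = mob a T * c := by
  simp only [mob, Finset.sum_mul, mul_assoc]

lemma sum_mob (S : Finset ι) : ∀ a : Finset ι → ℝ, ∑ T ∈ S.powerset, mob a T = a S := by
  induction S using Finset.induction_on with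
  | empty => intro a; simp [mob_empty]
  | insert i S hi ih =>
    intro a
    rw [Finset.sum_powerset_insert hi, ← Finset.sum_add_distrib, ← ih fun U => a (insert i U)]
    refine Finset.sum_congr rfl fun T hT => ?_
    rw [mob_insert a fun h => hi (Finset.mem_powerset.1 hT h)]
    ring

lemma mob_sum (T : Finset ι) :
    ∀ b : Finset ι → ℝ, mob (fun W => ∑ U ∈ W.powerset, b U) T = b T := by
  induction T using Finset.induction_on with
  | empty => intro b; simp [mob_empty]
  | insert i T hi ih =>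
    intro b
    rw [mob_insert _ hi, ← mob_sub, ← ih fun U => b (insert i U)]
    refine mob_congr fun U hU => ?_
    rw [Finset.sum_powerset_insert fun h => hi (hU h)]
    ring

lemma mob_ite_subset (U T : Finset ι) :
    mob (fun W => if U ⊆ W then 1 else 0) T = if T = U then 1 else 0 := by
  rw [← mob_sum T fun W => if W = U then 1 else 0]
  refine mob_congr fun W _ => ?_
  simp [Finset.sum_ite_eq', Finset.mem_powerset]

lemma mob_union {U T : Finset ι} (h : Disjoint U T) :
    ∀ a : Finset ι → ℝ, mob a (U ∪ T) = mob (fun W => mob (fun T' => a (W ∪ T')) T) U := by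
  induction U using Finset.induction_on with
  | empty => intro a; simp [mob_empty]
  | insert i U hi ih =>
    intro a
    rw [Finset.disjoint_insert_left] at h
    rw [Finset.insert_union, mob_insert _ (by simp [hi, h.1]), mob_insert _ hi, ih h.2, ih h.2]
    simp only [Finset.insert_union]

end Mob

section Avg
variable {ι : Type} [Fintype ι] [DecidableEq ι] {V : ι → Type} [∀ i, Fintype (V i)]

omit [Fintype ι] [∀ i, Fintype (V i)] in
lemma pw_pw (S : Finset ι) (x y : ∀ i, V i) :
    S.piecewise (S.piecewise x y) (S.piecewise y x) = x := by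
  funext i; by_cases h : i ∈ S <;> simp [Finset.piecewise, h]

/-- the swap lemma -/
lemma expect_swap (S : Finset ι) (Φ : (∀ i, V i) → (∀ i, V i) → ℝ) :
    𝔼 x : ∀ i, V i, 𝔼 y : ∀ i, V i, Φ (S.piecewise y x) (S.piecewise x y) =
      𝔼 x : ∀ i, V i, 𝔼 y : ∀ i, V i, Φ x y := by
  rw [← Finset.expect_product', ← Finset.expect_product', Finset.univ_product_univ]
  let σ : ((∀ i, V i) × (∀ i, V i)) → ((∀ i, V i) × (∀ i, V i)) :=
    fun z => (S.piecewise z.2 z.1, S.piecewise z.1 z.2)
  have hσ : Function.Involutive σ := fun z => by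
    simp only [σ, pw_pw]
  exact Fintype.expect_bijective σ hσ.bijective _ _ fun z => rfl

variable [∀ i, Nonempty (V i)]

lemma expect_piecewise (S : Finset ι) (φ : (∀ i, V i) → ℝ) :
    𝔼 x : ∀ i, V i, 𝔼 y : ∀ i, V i, φ (S.piecewise y x) = 𝔼 x, φ x := by
  rw [expect_swap S fun x _ => φ x]
  simp only [Fintype.expect_const]

lemma expect_avg (S : Finset ι) (f : (∀ i, V i) → ℝ) : 𝔼 x, avg S f x = 𝔼 x, f x :=
  expect_piecewise S f

lemma avg_avg (S T : Finset ι) (f : (∀ i, V i) → ℝ) : avg S (avg T f) = avg (S ∪ T) f := by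
  funext x
  unfold avg
  rw [← expect_piecewise T fun w => f ((S ∪ T).piecewise w x)]
  refine Finset.expect_congr rfl fun y _ => Finset.expect_congr rfl fun z _ => ?_
  congr 1
  funext i
  by_cases h1 : i ∈ S <;> by_cases h2 : i ∈ T <;> simp [Finset.piecewise, h1, h2]

lemma avg_comm (S T : Finset ι) (f : (∀ i, V i) → ℝ) : avg S (avg T f) = avg T (avg S f) := by
  rw [avg_avg, avg_avg, Finset.union_comm]

lemma avg_idem (S : Finset ι) (f : (∀ i, V i) → ℝ) : avg S (avg S f) = avg S f := by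
  rw [avg_avg, Finset.union_self]

lemma avg_empty (f : (∀ i, V i) → ℝ) : avg ∅ f = f := by
  funext x; simp [avg]

lemma avg_const (S : Finset ι) (c : ℝ) : avg S (fun _ : ∀ i, V i => c) = fun _ => c := by
  funext x; simp [avg]

lemma avg_insert (i : ι) (S : Finset ι) (f : (∀ i, V i) → ℝ) :
    avg (insert i S) f = avg {i} (avg S f) := by
  rw [avg_avg]; rfl

omit [∀ i, Nonempty (V i)]

lemma avg_univ (f : (∀ i, V i) → ℝ) : avg univ f = fun _ => 𝔼 y, f y := by
  funext x; simp [avg]

/-- `avg S` is self-adjoint -/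
lemma expect_mul_avg (S : Finset ι) (f g : (∀ i, V i) → ℝ) :
    𝔼 x, f x * avg S g x = 𝔼 x, avg S f x * g x := by
  unfold avg
  simp only [Finset.mul_expect, Finset.expect_mul]
  rw [← expect_swap S fun x y => f (S.piecewise y x) * g x]
  simp only [pw_pw]

lemma avg_add (S : Finset ι) (f g : (∀ i, V i) → ℝ) :
    avg S (fun x => f x + g x) = fun x => avg S f x + avg S g x := by
  funext x; simp only [avg, Finset.expect_add_distrib]

lemma avg_sub (S : Finset ι) (f g : (∀ i, V i) → ℝ) :
    avg S (fun x => f x - g x) = fun x => avg S f x - avg S g x := by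
  funext x; simp only [avg, Finset.expect_sub_distrib]

lemma avg_smul (S : Finset ι) (c : ℝ) (f : (∀ i, V i) → ℝ) :
    avg S (fun x => c * f x) = fun x => c * avg S f x := by
  funext x; simp only [avg, Finset.mul_expect]

lemma avg_zero (S : Finset ι) : avg S (fun _ : ∀ i, V i => (0 : ℝ)) = fun _ => 0 := by
  funext x; simp [avg]

lemma avg_sum {κ : Type*} (S : Finset ι) (s : Finset κ) (f : κ → (∀ i, V i) → ℝ) :
    avg S (fun x => ∑ k ∈ s, f k x) = fun x => ∑ k ∈ s, avg S (f k) x := by
  funext x; simp only [avg]; rw [Finset.expect_sum_comm]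

lemma avg_mono (S : Finset ι) {f g : (∀ i, V i) → ℝ} (h : ∀ x, f x ≤ g x) (x : ∀ i, V i) :
    avg S f x ≤ avg S g x := Finset.expect_le_expect fun _ _ => h _

lemma avg_nonneg (S : Finset ι) {f : (∀ i, V i) → ℝ} (h : ∀ x, 0 ≤ f x) (x : ∀ i, V i) :
    0 ≤ avg S f x := Finset.expect_nonneg fun _ _ => h _

lemma abs_avg_le (S : Finset ι) (f : (∀ i, V i) → ℝ) (x : ∀ i, V i) :
    |avg S f x| ≤ avg S (fun y => |f y|) x := Finset.abs_expect_le _ _

/-! ### dependence on coordinates -/

omit [Fintype ι] [DecidableEq ι] [∀ i, Fintype (V i)] in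
lemma DepOn.mono {S T : Finset ι} {f : (∀ i, V i) → ℝ} (h : DepOn S f) (hST : S ⊆ T) :
    DepOn T f := fun x y hxy => h x y fun i hi => hxy i (hST hi)

omit [Fintype ι] [DecidableEq ι] [∀ i, Fintype (V i)] in
lemma depOn_const (T : Finset ι) (c : ℝ) : DepOn T (fun _ : ∀ i, V i => c) := fun _ _ _ => rfl

omit [DecidableEq ι] [∀ i, Fintype (V i)] in
lemma depOn_univ (f : (∀ i, V i) → ℝ) : DepOn univ f :=
  fun _ _ h => congrArg f (funext fun i => h i (Finset.mem_univ i))

omit [Fintype ι] [DecidableEq ι] [∀ i, Fintype (V i)] in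
lemma DepOn.comp {T : Finset ι} {f : (∀ i, V i) → ℝ} (h : DepOn T f) (φ : ℝ → ℝ) :
    DepOn T fun x => φ (f x) := fun x y hxy => by simp only [h x y hxy]

omit [Fintype ι] [DecidableEq ι] [∀ i, Fintype (V i)] in
lemma DepOn.comp₂ {T : Finset ι} {f g : (∀ i, V i) → ℝ} (hf : DepOn T f) (hg : DepOn T g)
    (φ : ℝ → ℝ → ℝ) : DepOn T fun x => φ (f x) (g x) :=
  fun x y hxy => by simp only [hf x y hxy, hg x y hxy]

omit [Fintype ι] [∀ i, Fintype (V i)] in
lemma DepOn.mul {S T : Finset ι} {f g : (∀ i, V i) → ℝ} (hf : DepOn S f) (hg : DepOn T g) :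
    DepOn (S ∪ T) fun x => f x * g x :=
  (hf.mono Finset.subset_union_left).comp₂ (hg.mono Finset.subset_union_right) (· * ·)

omit [Fintype ι] [DecidableEq ι] [∀ i, Fintype (V i)] in
lemma DepOn.sum {κ : Type*} {T : Finset ι} {s : Finset κ} {f : κ → (∀ i, V i) → ℝ}
    (h : ∀ k ∈ s, DepOn T (f k)) : DepOn T fun x => ∑ k ∈ s, f k x :=
  fun x y hxy => Finset.sum_congr rfl fun k hk => h k hk x y hxy

lemma DepOn.avg {T : Finset ι} {f : (∀ i, V i) → ℝ} (h : DepOn T f) (S : Finset ι) :
    DepOn (T \ S) (avg S f) := by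
  intro x y hxy
  refine Finset.expect_congr rfl fun z _ => h _ _ fun i hi => ?_
  by_cases hS : i ∈ S
  · simp [Finset.piecewise, hS]
  · simp [Finset.piecewise, hS, hxy i (Finset.mem_sdiff.2 ⟨hi, hS⟩)]

lemma depOn_avg (S : Finset ι) (f : (∀ i, V i) → ℝ) : DepOn Sᶜ (avg S f) := by
  have := (depOn_univ f).avg S
  rwa [← Finset.compl_eq_univ_sdiff] at this

omit [Fintype ι] [∀ i, Fintype (V i)] in
lemma DepOn.piecewise {T S : Finset ι} {f : (∀ i, V i) → ℝ} (h : DepOn T f) (hd : Disjoint T S)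
    (x y : ∀ i, V i) : f (S.piecewise y x) = f x :=
  h _ _ fun i hi => by simp [Finset.piecewise, Finset.disjoint_left.1 hd hi]

lemma avg_mul_left {T S : Finset ι} {f : (∀ i, V i) → ℝ} (h : DepOn T f) (hd : Disjoint T S)
    (g : (∀ i, V i) → ℝ) : avg S (fun x => f x * g x) = fun x => f x * avg S g x := by
  funext x
  simp only [avg, Finset.mul_expect, h.piecewise hd]

lemma avg_mul_right {T S : Finset ι} {g : (∀ i, V i) → ℝ} (h : DepOn T g) (hd : Disjoint T S)
    (f : (∀ i, V i) → ℝ) : avg S (fun x => f x * g x) = fun x => avg S f x * g x := by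
  funext x
  simp only [avg, Finset.expect_mul, h.piecewise hd]

lemma DepOn.avg_eq [∀ i, Nonempty (V i)] {T S : Finset ι} {f : (∀ i, V i) → ℝ} (h : DepOn T f)
    (hd : Disjoint T S) : ES.avg S f = f := by
  funext x
  simp only [ES.avg, h.piecewise hd, Fintype.expect_const]

lemma DepOn.avg_eq_expect {T S : Finset ι} {f : (∀ i, V i) → ℝ} (h : DepOn T f) (hd : T ⊆ S)
    (x : ∀ i, V i) : ES.avg S f x = 𝔼 y, f y :=
  Finset.expect_congr rfl fun y _ => h _ _ fun i hi => by simp [Finset.piecewise, hd hi]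

lemma sq_avg_le [∀ i, Nonempty (V i)] (S : Finset ι) (f : (∀ i, V i) → ℝ) (x : ∀ i, V i) :
    avg S f x ^ 2 ≤ avg S (fun y => f y ^ 2) x := by
  have := Finset.expect_mul_sq_le_sq_mul_sq univ (fun y : ∀ i, V i => f (S.piecewise y x))
    fun _ => (1 : ℝ)
  simpa [avg] using this

lemma expect_sq_avg_le [∀ i, Nonempty (V i)] (S : Finset ι) (f : (∀ i, V i) → ℝ) :
    𝔼 x, avg S f x ^ 2 ≤ 𝔼 x, f x ^ 2 := by
  rw [← expect_avg S fun y => f y ^ 2]
  exact Finset.expect_le_expect fun x _ => sq_avg_le S f x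

/-! ### restrictions -/

omit [∀ i, Fintype (V i)] in
lemma depOn_res (S : Finset ι) (s : ∀ i, V i) (f : (∀ i, V i) → ℝ) : DepOn Sᶜ (res S s f) := by
  intro x y hxy
  unfold res
  congr 1
  funext i
  by_cases hS : i ∈ S
  · simp [Finset.piecewise, hS]
  · simp [Finset.piecewise, hS, hxy i (Finset.mem_compl.2 hS)]

lemma avg_compl_eq (S : Finset ι) (f : (∀ i, V i) → ℝ) (x : ∀ i, V i) :
    avg Sᶜ f x = 𝔼 y, res S x f y := by
  simp only [avg, res, Finset.piecewise_compl]

lemma res_avg {S T : Finset ι} (hd : Disjoint S T) (s : ∀ i, V i) (f : (∀ i, V i) → ℝ) :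
    res S s (avg T f) = avg T (res S s f) := by
  funext x
  refine Finset.expect_congr rfl fun y _ => ?_
  unfold res
  congr 1
  funext i
  by_cases h1 : i ∈ S
  · simp [Finset.piecewise, h1, Finset.disjoint_left.1 hd h1]
  · by_cases h2 : i ∈ T <;> simp [Finset.piecewise, h1, h2]

lemma avg_res [∀ i, Nonempty (V i)] (S : Finset ι) (s : ∀ i, V i) (f : (∀ i, V i) → ℝ) :
    avg S (res S s f) = res S s f := (depOn_res S s f).avg_eq disjoint_compl_left

/-! ### coordinatewise bijections -/

lemma expect_comp_equiv {V' : ι → Type} [∀ i, Fintype (V' i)] (e : ∀ i, V i ≃ V' i)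
    (f : (∀ i, V' i) → ℝ) : 𝔼 x : ∀ i, V i, f (fun i => e i (x i)) = 𝔼 x, f x :=
  Fintype.expect_equiv (Equiv.piCongrRight e) _ _ fun _ => rfl

lemma avg_comp_equiv {V' : ι → Type} [∀ i, Fintype (V' i)] (e : ∀ i, V i ≃ V' i)
    (S : Finset ι) (f : (∀ i, V' i) → ℝ) :
    avg S (fun x : ∀ i, V i => f fun i => e i (x i)) = fun x => avg S f fun i => e i (x i) := by
  funext x
  unfold avg
  rw [← expect_comp_equiv e fun y => f (S.piecewise y fun i => e i (x i))]
  refine Finset.expect_congr rfl fun y _ => congrArg f ?_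
  funext i
  by_cases h : i ∈ S <;> simp [Finset.piecewise, h]

end Avg

end Crest.Agent.N41.ES
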