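import Crest.Agent.N41.ES.Lift

/-!
# Row 41, part B2: equidistribution, Bessel's inequality for lifts, and `LiftStmt`
-/

set_option autoImplicit false
open Finset
open scoped BigOperators

namespace Crest.Agent.N41.ES

variable {ι : Type} [Fintype ι] [DecidableEq ι] {n : ι → ℕ} [∀ i, NeZero (n i)]

/-- a full period covers the product once -/
lemma sum_range_red (hc : Pairwise fun i j => Nat.Coprime (n i) (n j))
    (φ : (∀ i, ZMod (n i)) → ℝ) (a₀ : ℤ) :
    ∑ m ∈ range (qq n univ), φ (red n (a₀ + m)) = qq n univ * 𝔼 x, φ x := by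
  classical
  have hinj : Set.InjOn (fun m : ℕ => red n (a₀ + m)) (range (qq n univ)) := by
    intro m hm m' hm' h
    have h1 := qq_dvd_sub hc (U := univ) (a := a₀ + m) (b := a₀ + m') fun i _ => congrFun h i
    rw [add_sub_add_left_eq_sub] at h1
    have h2 : m ≡ m' [MOD qq n univ] := (Nat.modEq_iff_dvd).2 h1
    exact Nat.ModEq.eq_of_lt_of_lt h2 (by simpa using hm) (by simpa using hm')
  have himg : (range (qq n univ)).image (fun m : ℕ => red n (a₀ + m)) = univ := by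
    apply Finset.eq_univ_of_card
    rw [Finset.card_image_of_injOn hinj, Finset.card_range, card_G]
  rw [Fintype.expect_eq_sum_div_card, card_G, mul_div_cancel₀ _ (qq_pos univ).ne', ← himg,
    Finset.sum_image hinj]

omit [Fintype ι] [DecidableEq ι] [∀ i, NeZero (n i)] in
lemma DepOn.red_periodic {W : Finset ι} {φ : (∀ i, ZMod (n i)) → ℝ} (h : DepOn W φ) (a k : ℤ) :
    φ (red n (a + qq n W * k)) = φ (red n a) :=
  h _ _ fun _ hi => (intCast_eq_of_qq_dvd (by simp) hi).symm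

omit [Fintype ι] [DecidableEq ι] [∀ i, NeZero (n i)] in
lemma DepOn.sum_range_mul_add {W : Finset ι} {φ : (∀ i, ZMod (n i)) → ℝ} (h : DepOn W φ) (a₀ : ℤ)
    (k r : ℕ) : ∑ m ∈ range (qq n W * k + r), φ (red n (a₀ + m)) =
      k * ∑ m ∈ range (qq n W), φ (red n (a₀ + m)) + ∑ m ∈ range r, φ (red n (a₀ + m)) := by
  have key : ∀ k r : ℕ, ∑ m ∈ range (qq n W * k + r), φ (red n (a₀ + m)) =
      ∑ m ∈ range (qq n W * k), φ (red n (a₀ + m)) + ∑ m ∈ range r, φ (red n (a₀ + m)) := by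
    intro k r
    rw [Finset.sum_range_add]
    congr 1
    refine Finset.sum_congr rfl fun m _ => ?_
    rw [← h.red_periodic (a₀ + m) k]
    congr 2
    push_cast; ring
  rw [key]
  congr 1
  induction k with
  | zero => simp
  | succ k ih => rw [mul_add, mul_one, key, ih]; push_cast; ring

/-- one period of a function of the coordinates in `W` -/
lemma DepOn.sum_period (hc : Pairwise fun i j => Nat.Coprime (n i) (n j)) {W : Finset ι}
    {φ : (∀ i, ZMod (n i)) → ℝ} (h : DepOn W φ) (a₀ : ℤ) :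
    ∑ m ∈ range (qq n W), φ (red n (a₀ + m)) = qq n W * 𝔼 x, φ x := by
  have h4 : qq n univ = qq n W * qq n Wᶜ + 0 := by
    rw [← qq_union n disjoint_compl_right, Finset.union_compl, add_zero]
  have h1 := sum_range_red hc φ a₀
  rw [h4, h.sum_range_mul_add] at h1
  simp only [Finset.range_zero, Finset.sum_empty, add_zero, Nat.cast_mul] at h1
  refine mul_left_cancel₀ (qq_pos (n := n) Wᶜ).ne' ?_
  rw [h1]; ring

/-- equidistribution on intervals -/
lemma DepOn.sum_range_le (hc : Pairwise fun i j => Nat.Coprime (n i) (n j)) {W : Finset ι}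
    {φ : (∀ i, ZMod (n i)) → ℝ} (h : DepOn W φ) (a₀ : ℤ) (N : ℕ) :
    |∑ m ∈ range N, φ (red n (a₀ + m)) - N * 𝔼 x, φ x| ≤ 2 * qq n W * 𝔼 x, |φ x| := by
  have hq : 0 < qq n W := one_le_qq one_le_n W
  have hr := Nat.mod_lt N hq
  have hN := Nat.div_add_mod N (qq n W)
  generalize N / qq n W = k at hN
  generalize N % qq n W = r at hN hr
  subst hN
  rw [h.sum_range_mul_add, h.sum_period hc]
  have h1 : |∑ m ∈ range r, φ (red n (a₀ + m))| ≤ qq n W * 𝔼 x, |φ x| := by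
    rw [← (h.comp fun t => |t|).sum_period hc a₀]
    exact (Finset.abs_sum_le_sum_abs _ _).trans (Finset.sum_le_sum_of_subset_of_nonneg
      (Finset.range_mono hr.le) fun _ _ _ => abs_nonneg _)
  have h2 : |(r : ℝ) * 𝔼 x, φ x| ≤ qq n W * 𝔼 x, |φ x| := by
    rw [abs_mul, Nat.abs_cast]
    exact mul_le_mul (by exact_mod_cast hr.le) (Finset.abs_expect_le _ _) (abs_nonneg _)
      (by positivity)
  have h3 : (k : ℝ) * (qq n W * 𝔼 x, φ x) + ∑ m ∈ range r, φ (red n (a₀ + m)) -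
      ((qq n W * k + r : ℕ) : ℝ) * 𝔼 x, φ x =
      ∑ m ∈ range r, φ (red n (a₀ + m)) - r * 𝔼 x, φ x := by push_cast; ring
  rw [h3]
  refine (abs_sub _ _).trans ?_
  linarith

/-- the dual form of Bessel's inequality -/
lemma sum_range_proj_sq_le (hc : Pairwise fun i j => Nat.Coprime (n i) (n j))
    {F : Finset (Finset ι)} {y : ℝ} (hF : ∀ T ∈ F, (qq n T : ℝ) ≤ y) (hcard : (F.card : ℝ) ≤ y)
    (f : (∀ i, ZMod (n i)) → ℝ) (a₀ : ℤ) (N : ℕ) :
    ∑ m ∈ range N, proj F f (red n (a₀ + m)) ^ 2 ≤ (N + 2 * y ^ 3) * 𝔼 x, proj F f x ^ 2 := by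
  have hy : 0 ≤ y := le_trans (by positivity) hcard
  have h1 : ∀ T ∈ F, ∀ U ∈ F, ∑ m ∈ range N, es T f (red n (a₀ + m)) * es U f (red n (a₀ + m)) ≤
      N * (𝔼 x, es T f x * es U f x) + y ^ 2 * ((𝔼 x, es T f x ^ 2) + 𝔼 x, es U f x ^ 2) := by
    intro T hT U hU
    have h2 := ((depOn_es T f).mul (depOn_es U f)).sum_range_le hc a₀ N
    have h3 : (qq n (T ∪ U) : ℝ) ≤ y ^ 2 :=
      calc (qq n (T ∪ U) : ℝ) ≤ qq n T * qq n U := by exact_mod_cast qq_union_le one_le_n T U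
        _ ≤ y * y := mul_le_mul (hF T hT) (hF U hU) (by positivity) hy
        _ = y ^ 2 := by ring
    have h4 : 2 * 𝔼 x, |es T f x * es U f x| ≤ (𝔼 x, es T f x ^ 2) + 𝔼 x, es U f x ^ 2 := by
      rw [← Finset.expect_add_distrib, Finset.mul_expect]
      refine Finset.expect_le_expect fun x _ => ?_
      rw [abs_mul, ← sq_abs (es T f x), ← sq_abs (es U f x)]
      nlinarith [sq_nonneg (|es T f x| - |es U f x|)]
    have h5 : 0 ≤ 𝔼 x, |es T f x * es U f x| := Finset.expect_nonneg fun _ _ => abs_nonneg _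
    have h6 := (abs_le.1 h2).2
    have h7 : 2 * (qq n (T ∪ U) : ℝ) * 𝔼 x, |es T f x * es U f x| ≤
        y ^ 2 * ((𝔼 x, es T f x ^ 2) + 𝔼 x, es U f x ^ 2) := by
      rw [mul_comm 2, mul_assoc]
      exact mul_le_mul h3 h4 (by positivity) (by positivity)
    linarith
  have h2 : ∑ m ∈ range N, proj F f (red n (a₀ + m)) ^ 2 = ∑ T ∈ F, ∑ U ∈ F,
      ∑ m ∈ range N, es T f (red n (a₀ + m)) * es U f (red n (a₀ + m)) := by
    simp only [proj, sq, Finset.sum_mul_sum]
    rw [Finset.sum_comm]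
    exact Finset.sum_congr rfl fun T _ => Finset.sum_comm
  have h3 : ∑ T ∈ F, ∑ U ∈ F, 𝔼 x, es T f x * es U f x = 𝔼 x, proj F f x ^ 2 := by
    simp only [proj, sq, Finset.sum_mul_sum]
    rw [Finset.expect_sum_comm]
    exact Finset.sum_congr rfl fun T _ => (Finset.expect_sum_comm _ _ _).symm
  rw [h2]
  refine (Finset.sum_le_sum fun T hT => Finset.sum_le_sum fun U hU => h1 T hT U hU).trans ?_
  simp only [Finset.sum_add_distrib, ← Finset.mul_sum, h3, Finset.sum_const, nsmul_eq_mul,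
    ← parseval_proj]
  have h4 := expect_sq_nonneg (proj F f)
  have h5 : y ^ 2 * (F.card * 𝔼 x, proj F f x ^ 2) ≤ y ^ 2 * (y * 𝔼 x, proj F f x ^ 2) := by
    gcongr
  nlinarith

/-- Bessel's inequality for the lift of a subset of an interval -/
lemma bessel_interval (hc : Pairwise fun i j => Nat.Coprime (n i) (n j))
    {F : Finset (Finset ι)} {y : ℝ} (hF : ∀ T ∈ F, (qq n T : ℝ) ≤ y) (hcard : (F.card : ℝ) ≤ y)
    {A : Finset ℤ} {x₀ L : ℝ} (hA : InI A x₀ L) (hL : 0 < L) :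
    𝔼 x, proj F (lift n A L) x ^ 2 ≤ (L + 1) * (L + 1 + 2 * y ^ 3) / L ^ 2 := by
  have hy : 0 ≤ y := le_trans (by positivity) hcard
  set h := proj F (lift n A L)
  set E := 𝔼 x, h x ^ 2
  have hE : 0 ≤ E := expect_sq_nonneg h
  have h1 : E = 1 / L * ∑ a ∈ A, h (red n a) := by
    rw [← expect_lift_mul]
    simp only [E, h, ← expect_proj_mul_self, mul_comm]
  have h2 : ∑ a ∈ A, h (red n a) ^ 2 ≤ (L + 1 + 2 * y ^ 3) * E := by
    have h3 := sum_range_proj_sq_le hc hF hcard (lift n A L) ⌈x₀⌉ ⌈L⌉₊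
    have h4 : ∑ a ∈ A, h (red n a) ^ 2 ≤ ∑ m ∈ range ⌈L⌉₊, h (red n (⌈x₀⌉ + m)) ^ 2 := by
      refine (Finset.sum_le_sum_of_subset_of_nonneg (InI.subset_Ico hA)
        fun _ _ _ => sq_nonneg _).trans (le_of_eq ?_)
      symm
      refine Finset.sum_nbij' (fun m : ℕ => ⌈x₀⌉ + (m : ℤ)) (fun a => (a - ⌈x₀⌉).toNat)
        ?_ ?_ ?_ ?_ ?_
      · intro m hm; simp only [Finset.mem_range] at hm; simp only [Finset.mem_Ico]; omega
      · intro a ha; simp only [Finset.mem_Ico] at ha; simp only [Finset.mem_range]; omega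
      · intro m _; simp
      · intro a ha; simp only [Finset.mem_Ico] at ha; omega
      · intro m _; rfl
    refine h4.trans (h3.trans (mul_le_mul_of_nonneg_right ?_ hE))
    linarith [Nat.ceil_lt_add_one hL.le]
  have h3 : (∑ a ∈ A, h (red n a)) ^ 2 ≤ (L + 1) * ((L + 1 + 2 * y ^ 3) * E) :=
    sq_sum_le_card_mul_sum_sq.trans (mul_le_mul (card_le_of_inI hA hL.le) h2
      (Finset.sum_nonneg fun _ _ => sq_nonneg _) (by positivity))
  have h4 : ∑ a ∈ A, h (red n a) = L * E := by rw [h1]; field_simp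
  rw [h4] at h3
  rw [le_div_iff₀ (by positivity)]
  rcases hE.eq_or_lt with h0 | h0
  · rw [← h0, zero_mul]; positivity
  · refine le_of_mul_le_mul_right ?_ h0
    nlinarith

/-- Bessel's inequality for the lift of a subset of a progression -/
lemma bessel_class (hc : Pairwise fun i j => Nat.Coprime (n i) (n j))
    {F : Finset (Finset ι)} {S : Finset ι} (hS : ∀ T ∈ F, Disjoint T S) {y : ℝ}
    (hF : ∀ T ∈ F, (qq n T : ℝ) ≤ y) (hcard : (F.card : ℝ) ≤ y) {c μ : ℤ} (hμ : 0 < μ)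
    (hu : ∀ i, i ∉ S → IsUnit (μ : ZMod (n i))) {A : Finset ℤ} (hAc : ∀ a ∈ A, μ ∣ a - c)
    {x₀ L : ℝ} (hA : InI A x₀ L) (hL : 0 < L) :
    𝔼 x, proj F (lift n A (L / μ)) x ^ 2 ≤ (L / μ + 1) * (L / μ + 1 + 2 * y ^ 3) / (L / μ) ^ 2 := by
  have h1 := bessel_interval hc hF hcard (inI_image_div hμ hAc hA) (by positivity)
  rw [← proj_lift_image_aff hS c μ hμ.ne' hu, image_div_eq hAc] at h1
  rwa [expect_comp_equiv (fun i => aff (n i) c μ) fun x => proj F (lift n A (L / μ)) x ^ 2] at h1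

/-- **Module B2** -/
theorem liftStmt : LiftStmt := by
  intro ι _ _ q _ hp hinj A x₀ ℓ y W s hW hWq hA hs hy hℓ
  have hc := pairwise_coprime hp hinj
  have hW' : (1 : ℝ) ≤ W := by exact_mod_cast hW
  have hy5 : (0 : ℝ) < y ^ 5 * W := by positivity
  have hℓ0 : 0 < ℓ := hy5.trans_le hℓ
  have key : ∀ (U : Finset ι) (x : ∀ i, ZMod (q i)), ∃ c : ℤ,
      ∀ a ∈ A.filter fun a => ∀ i ∈ U, (a : ZMod (q i)) = x i, ((W * qq q U : ℕ) : ℤ) ∣ a - c := by
    intro U x
    rcases (A.filter fun a => ∀ i ∈ U, (a : ZMod (q i)) = x i).eq_empty_or_nonempty with h | ⟨c, hc'⟩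
    · exact ⟨0, by simp [h]⟩
    · refine ⟨c, fun a ha => ?_⟩
      rw [Finset.mem_filter] at ha hc'
      exact mul_qq_dvd_sub hc (fun i _ => hWq i) ((hs c hc'.1).trans (hs a ha.1).symm)
        fun i hi => by rw [ha.2 i hi, hc'.2 i hi]
  have hin : ∀ p : ℤ → Prop, ∀ [DecidablePred p], InI (A.filter p) x₀ ℓ :=
    fun p _ a ha => hA a (Finset.mem_filter.1 ha).1
  have hbig : ∀ U : Finset ι, (qq q U : ℝ) ≤ y → y ^ 4 ≤ ℓ / ((W * qq q U : ℕ) : ℤ) := by
    intro U hU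
    have := qq_pos (n := q) U
    push_cast
    rw [le_div_iff₀ (by positivity)]
    calc y ^ 4 * (W * qq q U) ≤ y ^ 4 * (W * y) := by gcongr
      _ = y ^ 5 * W := by ring
      _ ≤ ℓ := hℓ
  have hpos : ∀ U : Finset ι, (0 : ℤ) < ((W * qq q U : ℕ) : ℤ) := fun U => by
    have := one_le_qq (n := q) one_le_n U
    exact_mod_cast Nat.mul_pos hW this
  have hy4 : (16 : ℝ) ≤ y ^ 4 := by
    have := pow_le_pow_left₀ (by norm_num) hy 4
    linarith
  constructor
  · intro U hU x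
    obtain ⟨c, hc'⟩ := key U x
    have h1 := card_le_of_class (hpos U) hc' (hin _) hℓ0.le
    have h2 := hbig U hU
    have h3 := qq_pos (n := q) U
    rw [avg_compl_lift, abs_of_nonneg (by positivity)]
    have h4 : (qq q U : ℝ) / (ℓ / W) = (ℓ / ((W * qq q U : ℕ) : ℤ))⁻¹ := by
      push_cast; field_simp
    rw [h4]
    generalize ℓ / ((W * qq q U : ℕ) : ℤ) = L at h1 h2
    rw [inv_mul_le_iff₀ (by linarith)]
    linarith
  · intro U s' F hU hF
    obtain ⟨c, hc'⟩ := key U s'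
    have hcard : (F.card : ℝ) ≤ y :=
      card_le_of_qq_le one_le_n (qq_injective hp hinj) (by linarith) fun T hT => (hF T hT).2
    have h1 := bessel_class hc (fun T hT => (hF T hT).1) (fun T hT => (hF T hT).2) hcard (hpos U)
      (fun i hi => isUnit_mul_qq hc (hWq i) hi) hc' (hin _) hℓ0
    have h2 := hbig U hU
    have h4 : ℓ / W / qq q U = ℓ / ((W * qq q U : ℕ) : ℤ) := by
      push_cast; rw [div_div]
    rw [proj_res_lift fun T hT => (hF T hT).1, h4]
    refine h1.trans ?_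
    generalize ℓ / ((W * qq q U : ℕ) : ℤ) = L at h2
    have h5 : 2 * y ^ 3 ≤ L := by
      have : 2 * y ^ 3 ≤ y * y ^ 3 := by gcongr
      nlinarith
    rw [div_le_iff₀ (by nlinarith)]
    nlinarith

end Crest.Agent.N41.ES
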