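import Crest.Agent.N41.ES.Res

/-!
# Row 41, part B3: the two-function global hypercontractive inequality and moments
-/

set_option autoImplicit false
open Finset
open scoped BigOperators

namespace Crest.Agent.N41.ES

variable {ι : Type} [Fintype ι] [DecidableEq ι] {V : ι → Type} [∀ i, Fintype (V i)]
  [∀ i, Nonempty (V i)]

/-- symbol of the derivative in the directions `S` followed by the noise operator `T_2` on `M \ S` -/
noncomputable def mu (M S U : Finset ι) : ℝ := if S ⊆ U then 2 ^ (U ∩ (M \ S)).card else 0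

/-- the local squared norm -/
noncomputable def Nn (M S : Finset ι) (u : (∀ i, V i) → ℝ) : (∀ i, V i) → ℝ :=
  avg (M \ S) fun z => op (mu M S) u z ^ 2

/-- the one-coordinate Laplacian -/
noncomputable def dd (i : ι) (f : (∀ i, V i) → ℝ) : (∀ i, V i) → ℝ := fun x => f x - avg {i} f x

omit [∀ i, Nonempty (V i)] in
lemma avg_single_eq_op (i : ι) (f : (∀ i, V i) → ℝ) :
    avg {i} f = op (fun U => if i ∈ U then 0 else 1) f := by
  rw [avg_eq_op]; congr 1; funext U
  by_cases h : i ∈ U <;> simp [h]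

lemma dd_eq_op (i : ι) (f : (∀ i, V i) → ℝ) :
    dd i f = op (fun U => if i ∈ U then 1 else 0) f := by
  funext x
  have h : op (fun U => (if i ∈ U then 1 else 0) + if i ∈ U then 0 else 1) f = f := by
    conv_rhs => rw [← op_one f]
    congr 1; funext U; split_ifs <;> simp
  have h2 := congrFun h x
  rw [op_symbol_add] at h2
  simp only [dd, avg_single_eq_op]
  linarith

lemma avg_dd (i : ι) (f : (∀ i, V i) → ℝ) : avg {i} (dd i f) = fun _ => 0 := by
  unfold dd; rw [avg_sub, avg_idem]; simp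

omit [∀ i, Nonempty (V i)] in
lemma Nn_nonneg (M S : Finset ι) (u : (∀ i, V i) → ℝ) (x : ∀ i, V i) : 0 ≤ Nn M S u x :=
  avg_nonneg _ (fun _ => sq_nonneg _) x

lemma depOn_Nn {W : Finset ι} {u : (∀ i, V i) → ℝ} (h : DepOn W u) (M S : Finset ι) :
    DepOn W (Nn M S u) :=
  (((h.op _).comp fun t => t ^ 2).avg _).mono Finset.sdiff_subset

lemma Nn_insert_insert {i : ι} {M S : Finset ι} (hi : i ∉ M) (f : (∀ i, V i) → ℝ) :
    Nn (insert i M) (insert i S) f = Nn M S (dd i f) := by
  have h1 : insert i M \ insert i S = M \ S := by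
    ext j; simp only [Finset.mem_sdiff, Finset.mem_insert]
    constructor
    · rintro ⟨h1 | h1, h2⟩
      · exact absurd (Or.inl h1) h2
      · exact ⟨h1, fun h => h2 (Or.inr h)⟩
    · rintro ⟨h1, h2⟩
      exact ⟨Or.inr h1, fun h => h.elim (fun h => hi (h ▸ h1)) h2⟩
  have h2 : op (mu (insert i M) (insert i S)) f = op (mu M S) (dd i f) := by
    rw [dd_eq_op, op_op]; congr 1; funext U
    simp only [mu, h1, Finset.insert_subset_iff]
    by_cases h : i ∈ U <;> simp [h]
  simp only [Nn, h1, h2]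

lemma Nn_insert {i : ι} {M S : Finset ι} (hi : i ∉ M) (hS : S ⊆ M) (f : (∀ i, V i) → ℝ) :
    Nn (insert i M) S f =
      fun x => Nn M S (avg {i} f) x + 4 * avg {i} (Nn M S (dd i f)) x := by
  have hiS : i ∉ S := fun h => hi (hS h)
  have h1 : insert i M \ S = insert i (M \ S) := Finset.insert_sdiff_of_notMem _ hiS
  have h2 : op (mu (insert i M) S) f =
      fun z => op (mu M S) (avg {i} f) z + 2 * op (mu M S) (dd i f) z := by
    rw [dd_eq_op, avg_single_eq_op, op_op, op_op]
    funext z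
    simp only [op, Finset.mul_sum, ← Finset.sum_add_distrib, ← mul_assoc, ← add_mul]
    refine Finset.sum_congr rfl fun U _ => congrArg (· * _) ?_
    simp only [mu, h1]
    by_cases h : i ∈ U
    · rw [Finset.inter_insert_of_mem h, Finset.card_insert_of_notMem (by simp [hi])]
      split_ifs <;> ring
    · rw [Finset.inter_insert_of_notMem h]
      split_ifs <;> ring
  have hA : DepOn {i}ᶜ (op (mu M S) (avg {i} f)) := (depOn_avg {i} f).op _
  have hD : avg {i} (op (mu M S) (dd i f)) = fun _ => 0 := by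
    rw [avg_op_comm, avg_dd]; funext x; simp [op, es_zero]
  have h3 : avg {i} (fun z => op (mu (insert i M) S) f z ^ 2) = fun z =>
      op (mu M S) (avg {i} f) z ^ 2 + 4 * avg {i} (fun z => op (mu M S) (dd i f) z ^ 2) z := by
    have : (fun z => op (mu (insert i M) S) f z ^ 2) = fun z => (op (mu M S) (avg {i} f) z ^ 2 +
        (4 * op (mu M S) (avg {i} f) z) * op (mu M S) (dd i f) z) +
        4 * op (mu M S) (dd i f) z ^ 2 := by
      funext z; rw [h2]; ring
    rw [this, avg_add, avg_add, avg_smul, (hA.comp fun t => t ^ 2).avg_eq disjoint_compl_left,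
      avg_mul_left (hA.comp fun t => 4 * t) disjoint_compl_left, hD]
    simp
  unfold Nn
  rw [h1, avg_insert, avg_comm, h3, avg_add, avg_smul, avg_comm]

lemma one_coord (i : ι) (f g : (∀ i, V i) → ℝ) (x : ∀ i, V i) :
    avg {i} (fun y => f y ^ 2 * g y ^ 2) x ≤ avg {i} (fun y =>
      avg {i} f y ^ 2 * avg {i} g y ^ 2 + 4 * (avg {i} f y ^ 2 * dd i g y ^ 2) +
      4 * (dd i f y ^ 2 * avg {i} g y ^ 2) + 3 * (dd i f y ^ 2 * dd i g y ^ 2)) x := by
  have ha := depOn_avg {i} f
  have hb := depOn_avg {i} g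
  have h1 : ∀ y, f y ^ 2 * g y ^ 2 ≤ (avg {i} f y ^ 2 * avg {i} g y ^ 2 +
      4 * (avg {i} f y ^ 2 * dd i g y ^ 2) + 4 * (dd i f y ^ 2 * avg {i} g y ^ 2) +
      3 * (dd i f y ^ 2 * dd i g y ^ 2)) + (2 * avg {i} f y ^ 2 * avg {i} g y) * dd i g y +
      (2 * avg {i} f y * avg {i} g y ^ 2) * dd i f y := fun y => by
    have hf : f y = avg {i} f y + dd i f y := by simp [dd]
    have hg : g y = avg {i} g y + dd i g y := by simp [dd]
    generalize avg {i} f y = a at *
    generalize avg {i} g y = b at *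
    generalize dd i f y = d at *
    generalize dd i g y = e at *
    rw [hf, hg]
    nlinarith [sq_nonneg (a * e - b * d), sq_nonneg (a * e - d * e), sq_nonneg (b * d - d * e)]
  refine (avg_mono {i} h1 x).trans (le_of_eq ?_)
  rw [avg_add, avg_add, avg_mul_left (ha.comp₂ hb fun s t => 2 * s ^ 2 * t) disjoint_compl_left,
    avg_mul_left (ha.comp₂ hb fun s t => 2 * s * t ^ 2) disjoint_compl_left, avg_dd, avg_dd]
  simp

/-- the two-function inequality -/
theorem hc2 (M : Finset ι) : ∀ (f g : (∀ i, V i) → ℝ) (x : ∀ i, V i),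
    avg M (fun y => f y ^ 2 * g y ^ 2) x ≤
      ∑ S ∈ M.powerset, 3 ^ S.card * avg S (fun y => Nn M S f y * Nn M S g y) x := by
  induction M using Finset.induction_on with
  | empty =>
    intro f g x
    have : ∀ u : (∀ i, V i) → ℝ, Nn ∅ ∅ u = fun y => u y ^ 2 := fun u => by
      have h : mu (∅ : Finset ι) ∅ = fun _ => 1 := by funext U; simp [mu]
      simp [Nn, h, op_one, avg_empty]
    simp [this, avg_empty]
  | insert i M hi ih =>
    intro f g x
    set a := avg {i} f
    set b := avg {i} g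
    set d := dd i f
    set e := dd i g
    have ha : DepOn {i}ᶜ a := depOn_avg {i} f
    have hb : DepOn {i}ᶜ b := depOn_avg {i} g
    have step1 : avg (insert i M) (fun y => f y ^ 2 * g y ^ 2) x ≤ avg {i} (fun z =>
        avg M (fun y => a y ^ 2 * b y ^ 2) z + 4 * avg M (fun y => a y ^ 2 * e y ^ 2) z +
        4 * avg M (fun y => d y ^ 2 * b y ^ 2) z + 3 * avg M (fun y => d y ^ 2 * e y ^ 2) z) x := by
      rw [avg_insert, avg_comm]
      refine (avg_mono M (one_coord i f g) x).trans (le_of_eq ?_)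
      rw [avg_comm, avg_add (S := M), avg_add (S := M), avg_add (S := M), avg_smul, avg_smul,
        avg_smul]
    have step2 : ∀ z, avg M (fun y => a y ^ 2 * b y ^ 2) z + 4 * avg M (fun y => a y ^ 2 * e y ^ 2) z +
        4 * avg M (fun y => d y ^ 2 * b y ^ 2) z + 3 * avg M (fun y => d y ^ 2 * e y ^ 2) z ≤
        ∑ S ∈ M.powerset, (3 ^ S.card * avg S (fun y => Nn M S a y * Nn M S b y +
          4 * (Nn M S a y * Nn M S e y) + 4 * (Nn M S d y * Nn M S b y)) z +
          3 ^ (S.card + 1) * avg S (fun y => Nn M S d y * Nn M S e y) z) := fun z => by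
      have h1 := ih a b z
      have h2 := ih a e z
      have h3 := ih d b z
      have h4 := ih d e z
      simp only [avg_add, avg_smul, mul_add, Finset.sum_add_distrib, pow_succ' (3 : ℝ),
        mul_left_comm _ (4 : ℝ), mul_assoc, ← Finset.mul_sum]
      linarith
    refine step1.trans ((avg_mono {i} step2 x).trans ?_)
    rw [avg_sum, Finset.sum_powerset_insert hi, ← Finset.sum_add_distrib]
    refine Finset.sum_le_sum fun S hS => ?_
    have hS' := Finset.mem_powerset.1 hS
    have hiS : i ∉ S := fun h => hi (hS' h)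
    rw [avg_add, avg_smul, avg_smul, Finset.card_insert_of_notMem hiS, Nn_insert_insert hi,
      Nn_insert_insert hi, avg_insert i S]
    refine add_le_add (mul_le_mul_of_nonneg_left ?_ (by positivity)) le_rfl
    rw [avg_comm]
    refine avg_mono S (fun y => ?_) x
    rw [Nn_insert hi hS', Nn_insert hi hS', avg_add, avg_add, avg_smul, avg_smul,
      avg_mul_left (depOn_Nn ha M S) disjoint_compl_left,
      avg_mul_left (depOn_Nn ha M S) disjoint_compl_left,
      avg_mul_right (depOn_Nn hb M S) disjoint_compl_left,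
      (depOn_Nn hb M S).avg_eq disjoint_compl_left]
    have := mul_nonneg (avg_nonneg {i} (Nn_nonneg M S d) y) (avg_nonneg {i} (Nn_nonneg M S e) y)
    simp only
    nlinarith

/-- all Efron–Stein parts of level above `a` vanish -/
def Deg (a : ℕ) (f : (∀ i, V i) → ℝ) : Prop := ∀ T : Finset ι, a < T.card → es T f = fun _ => 0

lemma deg_one : Deg 0 (fun _ : ∀ i, V i => (1 : ℝ)) := fun T hT =>
  (depOn_const ∅ 1).es_eq_zero fun h => by
    rw [Finset.subset_empty.1 h] at hT; simp at hT

lemma Deg.mul {a b : ℕ} {f g : (∀ i, V i) → ℝ} (hf : Deg a f) (hg : Deg b g) :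
    Deg (a + b) fun x => f x * g x := by
  intro W hW
  have : (fun x => f x * g x) = fun x => ∑ T, ∑ U, es T f x * es U g x := by
    funext x; rw [← Finset.sum_mul_sum, sum_es, sum_es]
  rw [this, es_sum]
  funext x
  refine Finset.sum_eq_zero fun T _ => ?_
  rw [es_sum]
  refine Finset.sum_eq_zero fun U _ => ?_
  by_cases hT : a < T.card
  · simp [hf T hT, es_zero]
  by_cases hU : b < U.card
  · simp [hg U hU, es_zero]
  rw [((depOn_es T f).mul (depOn_es U g)).es_eq_zero fun h => ?_]
  have := (Finset.card_le_card h).trans (Finset.card_union_le T U)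
  omega

lemma Deg.pow {a : ℕ} {f : (∀ i, V i) → ℝ} (hf : Deg a f) (j : ℕ) :
    Deg (j * a) fun x => f x ^ j := by
  induction j with
  | zero => simpa using deg_one
  | succ j ih => simpa [pow_succ, add_mul] using ih.mul hf

lemma deg_proj {d : ℕ} {F : Finset (Finset ι)} (hF : ∀ T ∈ F, T.card ≤ d) (f : (∀ i, V i) → ℝ) :
    Deg d (proj F f) := fun T hT => by
  rw [es_proj, if_neg fun h => absurd (hF T h) (by omega)]

omit [∀ i, Fintype (V i)] [∀ i, Nonempty (V i)] in
lemma sum_mu_sq (U : Finset ι) : ∑ S, 3 ^ S.card * mu univ S U ^ 2 = (7 : ℝ) ^ U.card := by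
  have h := Finset.sum_pow_mul_eq_add_pow (3 : ℝ) 4 U
  rw [show (3 : ℝ) + 4 = 7 by norm_num] at h
  rw [← h, ← Finset.sum_subset (Finset.subset_univ U.powerset)]
  · refine Finset.sum_congr rfl fun S hS => ?_
    have hS' := Finset.mem_powerset.1 hS
    have : U ∩ (univ \ S) = U \ S := by ext j; simp
    rw [mu, if_pos hS', this, Finset.card_sdiff_of_subset hS', ← pow_mul, mul_comm _ 2, pow_mul]
    norm_num
  · intro S _ hS
    rw [mu, if_neg (by simpa using hS)]; simp

/-- the product inequality -/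
theorem expect_sq_mul_sq_le {a : ℕ} {f g : (∀ i, V i) → ℝ} {B : ℝ} (hB0 : 0 ≤ B)
    (hB : ∀ S x, Nn univ S f x ≤ B) (hg : Deg a g) :
    𝔼 y, f y ^ 2 * g y ^ 2 ≤ B * 7 ^ a * 𝔼 y, g y ^ 2 := by
  have h1 : 𝔼 y, f y ^ 2 * g y ^ 2 ≤
      𝔼 x, ∑ S, 3 ^ S.card * avg S (fun y => Nn univ S f y * Nn univ S g y) x := by
    rw [← expect_avg univ]
    refine Finset.expect_le_expect fun x _ => ?_
    simpa only [Finset.powerset_univ] using hc2 univ f g x
  refine h1.trans ?_
  rw [Finset.expect_sum_comm]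
  have h2 : ∀ S : Finset ι, 𝔼 x, 3 ^ S.card * avg S (fun y => Nn univ S f y * Nn univ S g y) x ≤
      B * ∑ U, 3 ^ S.card * mu univ S U ^ 2 * 𝔼 y, es U g y ^ 2 := fun S => by
    rw [← Finset.mul_expect, expect_avg]
    simp only [mul_assoc, ← Finset.mul_sum]
    rw [← parseval_op, mul_left_comm, ← expect_avg (univ \ S) fun x => op (mu univ S) g x ^ 2]
    refine mul_le_mul_of_nonneg_left ?_ (pow_nonneg (by norm_num : (0 : ℝ) ≤ 3) _)
    rw [Finset.mul_expect]
    exact Finset.expect_le_expect fun y _ =>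
      mul_le_mul_of_nonneg_right (hB S y) (Nn_nonneg _ _ _ _)
  refine (Finset.sum_le_sum fun S _ => h2 S).trans ?_
  rw [← Finset.mul_sum, Finset.sum_comm, mul_assoc, parseval g, Finset.mul_sum univ _ (7 ^ a)]
  refine mul_le_mul_of_nonneg_left (Finset.sum_le_sum fun U _ => ?_) hB0
  rw [← Finset.sum_mul, sum_mu_sq]
  by_cases hU : a < U.card
  · simp [hg U hU]
  · exact mul_le_mul_of_nonneg_right (pow_le_pow_right₀ (by norm_num) (by omega))
      (expect_sq_nonneg _)

theorem expect_pow_le {d : ℕ} {h : (∀ i, V i) → ℝ} {B : ℝ} (hB0 : 0 ≤ B)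
    (hB : ∀ S x, Nn univ S h x ≤ B) (hd : Deg d h) (l j : ℕ) (hj : j ≤ l) :
    𝔼 y, h y ^ (2 * j) ≤ (B * 7 ^ (l * d)) ^ j := by
  induction j with
  | zero => simp
  | succ j ih =>
    have h1 := expect_sq_mul_sq_le hB0 hB (hd.pow j)
    have h2 : ∀ y, h y ^ (2 * (j + 1)) = h y ^ 2 * (h y ^ j) ^ 2 := fun y => by ring
    have h3 : ∀ y, (h y ^ j) ^ 2 = h y ^ (2 * j) := fun y => by ring
    simp only [h2]
    refine h1.trans ?_
    simp only [h3]
    rw [pow_succ']
    refine mul_le_mul (mul_le_mul_of_nonneg_left (pow_le_pow_right₀ (by norm_num)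
      (Nat.mul_le_mul_right _ (by omega))) hB0) (ih (by omega)) ?_ (by positivity)
    exact Finset.expect_nonneg fun y _ => by rw [← h3]; positivity

/-- local norms of a truncation of a global function -/
lemma Nn_proj_le {q : ι → ℕ} (hq : ∀ i, 1 ≤ q i) {y : ℝ} {f : (∀ i, V i) → ℝ}
    (hf : Glob q (y ^ 2) f) {U : Finset ι} (hU : (qq q U : ℝ) ≤ y) (s : ∀ i, V i)
    {F : Finset (Finset ι)} {d : ℕ}
    (hF : ∀ T ∈ F, Disjoint T U ∧ (qq q T : ℝ) ≤ y ∧ T.card ≤ d) (S : Finset ι) (x : ∀ i, V i) :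
    Nn univ S (proj F (res U s f)) x ≤ 4 * 16 ^ d := by
  have hy : 1 ≤ y := le_trans (by exact_mod_cast one_le_qq hq U) hU
  unfold Nn
  rw [← Finset.compl_eq_univ_sdiff, avg_compl_eq]
  change 𝔼 z, res S x (op (mu univ S) (proj F (res U s f))) z ^ 2 ≤ _
  by_cases hS : ∃ T ∈ F, S ⊆ T
  swap
  · have : op (mu univ S) (proj F (res U s f)) = fun _ => 0 := by
      rw [op_proj]; funext z
      refine Finset.sum_eq_zero fun T _ => ?_
      by_cases hT : T ∈ F
      · have : ¬ S ⊆ T := fun h => hS ⟨T, hT, h⟩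
        simp [mu, this]
      · simp [hT]
    rw [this]; simp [res]
  obtain ⟨T₀, hT₀, hST₀⟩ := hS
  have hSd : S.card ≤ d := (Finset.card_le_card hST₀).trans (hF T₀ hT₀).2.2
  let m : Finset ι → ℝ := fun T =>
    if Disjoint T S then (if S ∪ T ∈ F then mu univ S (S ∪ T) else 0) else 0
  let F' : Finset (Finset ι) := univ.filter fun T => Disjoint T S ∧ S ∪ T ∈ F
  have h1 : res S x (op (mu univ S) (proj F (res U s f))) = fun z => ∑ W ∈ S.powerset,
      (-1 : ℝ) ^ (S \ W).card * op m (res W x (res U s f)) z := by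
    rw [op_proj, res_op]
    funext z
    rw [Finset.sum_eq_single S]
    · intro U' hU' hne
      refine Finset.sum_eq_zero fun W _ => mul_eq_zero_of_right _ ?_
      refine Finset.sum_eq_zero fun T _ => mul_eq_zero_of_left ?_ _
      dsimp only
      split_ifs with h1 h2
      · rw [mu, if_neg]
        intro h
        refine hne (Finset.Subset.antisymm (Finset.mem_powerset.1 hU') fun j hj => ?_)
        exact (Finset.mem_union.1 (h hj)).resolve_right (Finset.disjoint_right.1 h1 hj)
      · rfl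
      · rfl
    · simp
  have h2 : ∀ W ∈ S.powerset, 𝔼 z, op m (res W x (res U s f)) z ^ 2 ≤ 4 ^ d * 4 := fun W hW => by
    have hW' := Finset.mem_powerset.1 hW
    refine (expect_sq_op_le_proj (F := F') (c := 4 ^ d) (fun T hT => ?_) (fun T hT => ?_) _).trans
      (mul_le_mul_of_nonneg_left ?_ (by positivity))
    · simp only [F', Finset.mem_filter, Finset.mem_univ, true_and, not_and] at hT
      simp only [m]
      split_ifs with h1 h2
      · exact absurd h2 (hT h1)
      · rfl
      · rfl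
    · simp only [F', Finset.mem_filter, Finset.mem_univ, true_and] at hT
      simp only [m, if_pos hT.1, if_pos hT.2, mu, if_pos Finset.subset_union_left]
      rw [← pow_mul, mul_comm _ 2, pow_mul]
      norm_num
      exact pow_le_pow_right₀ (by norm_num)
        ((Finset.card_le_card Finset.inter_subset_left).trans (hF _ hT.2).2.2)
    · rw [res_res]
      refine hf.bes _ _ _ ?_ fun T hT => ?_
      · have h3 : (qq q W : ℝ) ≤ y :=
          le_trans (by exact_mod_cast qq_mono hq (hW'.trans hST₀)) (hF T₀ hT₀).2.1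
        calc (qq q (U ∪ W) : ℝ) ≤ qq q U * qq q W := by exact_mod_cast qq_union_le hq U W
          _ ≤ y * y := mul_le_mul hU h3 (by positivity) (by positivity)
          _ = y ^ 2 := by ring
      · simp only [F', Finset.mem_filter, Finset.mem_univ, true_and] at hT
        refine ⟨Finset.disjoint_union_right.2 ⟨(hF _ hT.2).1.mono_left Finset.subset_union_right,
          hT.1.mono_right hW'⟩, ?_⟩
        calc (qq q T : ℝ) ≤ qq q (S ∪ T) := by exact_mod_cast qq_mono hq Finset.subset_union_right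
          _ ≤ y := (hF _ hT.2).2.1
          _ ≤ y ^ 2 := by nlinarith
  rw [h1]
  have h3 : ∀ z, (∑ W ∈ S.powerset, (-1 : ℝ) ^ (S \ W).card * op m (res W x (res U s f)) z) ^ 2 ≤
      2 ^ S.card * ∑ W ∈ S.powerset, op m (res W x (res U s f)) z ^ 2 := fun z => by
    refine sq_sum_le_card_mul_sum_sq.trans (le_of_eq ?_)
    rw [Finset.card_powerset]
    push_cast
    congr 1
    refine Finset.sum_congr rfl fun W _ => ?_
    rw [mul_pow, ← pow_mul, mul_comm _ 2, pow_mul]; simp
  refine (Finset.expect_le_expect fun z _ => h3 z).trans ?_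
  rw [← Finset.mul_expect, Finset.expect_sum_comm]
  have h4 := Finset.sum_le_card_nsmul _ _ _ h2
  rw [Finset.card_powerset, nsmul_eq_mul] at h4
  push_cast at h4
  have h5 : (2 : ℝ) ^ S.card ≤ 2 ^ d := pow_le_pow_right₀ (by norm_num) hSd
  calc (2 : ℝ) ^ S.card * ∑ W ∈ S.powerset, 𝔼 z, op m (res W x (res U s f)) z ^ 2
      ≤ 2 ^ S.card * (2 ^ S.card * (4 ^ d * 4)) := mul_le_mul_of_nonneg_left h4 (by positivity)
    _ ≤ 2 ^ d * (2 ^ d * (4 ^ d * 4)) := by gcongr
    _ = 4 * 16 ^ d := by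
      rw [show (16 : ℝ) = 2 * 2 * 4 by norm_num, mul_pow, mul_pow]; ring

/-- **Module B3** -/
theorem hc : HCStmt := by
  intro l
  have h1 : (1 : ℝ) ≤ 7 ^ l := one_le_pow₀ (by norm_num)
  refine ⟨(16 * 7 ^ l) ^ l, one_le_pow₀ (by linarith), ?_⟩
  intro ι _ _ V _ _ q y f U s F d hq hf hU hF
  refine (expect_pow_le (B := 4 * 16 ^ d) (by positivity) (Nn_proj_le hq hf hU s hF)
    (deg_proj (fun T hT => (hF T hT).2.2) _) l l le_rfl).trans ?_
  have h3 : (((16 : ℝ) * 7 ^ l) ^ l) ^ (d + 1) = ((16 * 7 ^ l) ^ (d + 1)) ^ l := by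
    rw [← pow_mul, ← pow_mul, mul_comm l]
  have h4 : (4 : ℝ) * 16 ^ d * 7 ^ (l * d) ≤ (16 * 7 ^ l) ^ (d + 1) := by
    rw [pow_succ, mul_pow, ← pow_mul]
    have h2 : (0 : ℝ) ≤ 16 ^ d * 7 ^ (l * d) := by positivity
    nlinarith
  rw [h3]
  exact pow_le_pow_left₀ (by positivity) h4 l

end Crest.Agent.N41.ES
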