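import Crest.Agent.N41.ES.Basic

/-!
# Row 41, part B: Efron–Stein parts and the multiplier calculus

`op m f = ∑_U m U • f^{=U}`.  All the operators (`avg`, `es`, `proj`) are multipliers, and
`op m (op m' f) = op (m m') f`.
-/

set_option autoImplicit false
open Finset
open scoped BigOperators

namespace Crest.Agent.N41.ES

variable {ι : Type} [Fintype ι] [DecidableEq ι] {V : ι → Type} [∀ i, Fintype (V i)]

/-- the Efron–Stein multiplier with symbol `m` -/
noncomputable def op (m : Finset ι → ℝ) (f : (∀ i, V i) → ℝ) : (∀ i, V i) → ℝ :=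
  fun x => ∑ U, m U * es U f x

lemma disjoint_compl_iff {U W : Finset ι} : Disjoint U Wᶜ ↔ U ⊆ W := by
  rw [← Finset.subset_compl_iff_disjoint_right, compl_compl]

lemma es_eq_mob (T : Finset ι) (f : (∀ i, V i) → ℝ) (x : ∀ i, V i) :
    es T f x = mob (fun U => avg Uᶜ f x) T := rfl

lemma es_empty (f : (∀ i, V i) → ℝ) : es ∅ f = fun _ => 𝔼 y, f y := by
  funext x; rw [es_eq_mob, mob_empty, Finset.compl_empty, avg_univ]

lemma es_add (T : Finset ι) (f g : (∀ i, V i) → ℝ) :
    es T (fun x => f x + g x) = fun x => es T f x + es T g x := by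
  funext x; simp only [es, avg_add, mul_add, Finset.sum_add_distrib]

lemma es_sub (T : Finset ι) (f g : (∀ i, V i) → ℝ) :
    es T (fun x => f x - g x) = fun x => es T f x - es T g x := by
  funext x; simp only [es, avg_sub, mul_sub, Finset.sum_sub_distrib]

lemma es_smul (T : Finset ι) (c : ℝ) (f : (∀ i, V i) → ℝ) :
    es T (fun x => c * f x) = fun x => c * es T f x := by
  funext x; simp only [es, avg_smul, Finset.mul_sum]
  exact Finset.sum_congr rfl fun _ _ => by ring

lemma es_zero (T : Finset ι) : es T (fun _ : ∀ i, V i => (0 : ℝ)) = fun _ => 0 := by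
  funext x; simp [es, avg_zero]

lemma es_sum {κ : Type*} (T : Finset ι) (s : Finset κ) (f : κ → (∀ i, V i) → ℝ) :
    es T (fun x => ∑ k ∈ s, f k x) = fun x => ∑ k ∈ s, es T (f k) x := by
  funext x; simp only [es, avg_sum, Finset.mul_sum]; rw [Finset.sum_comm]

lemma depOn_es (T : Finset ι) (f : (∀ i, V i) → ℝ) : DepOn T (es T f) := by
  refine DepOn.sum fun U hU => ?_
  have h := depOn_avg Uᶜ f
  rw [compl_compl] at h
  exact (h.mono (Finset.mem_powerset.1 hU)).comp fun t => (-1 : ℝ) ^ (T \ U).card * t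

lemma sum_es_powerset (S : Finset ι) (f : (∀ i, V i) → ℝ) (x : ∀ i, V i) :
    ∑ T ∈ S.powerset, es T f x = avg Sᶜ f x := sum_mob S fun U => avg Uᶜ f x

/-- `es T` is self-adjoint -/
lemma expect_mul_es (T : Finset ι) (f g : (∀ i, V i) → ℝ) :
    𝔼 x, f x * es T g x = 𝔼 x, es T f x * g x := by
  simp only [es, Finset.mul_sum, Finset.sum_mul]
  rw [Finset.expect_sum_comm, Finset.expect_sum_comm]
  refine Finset.sum_congr rfl fun U _ => ?_
  have := expect_mul_avg Uᶜ f g
  simp only [mul_left_comm (f _), mul_assoc, ← Finset.mul_expect, this]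

lemma es_comp_equiv {V' : ι → Type} [∀ i, Fintype (V' i)] (e : ∀ i, V i ≃ V' i)
    (T : Finset ι) (f : (∀ i, V' i) → ℝ) :
    es T (fun x : ∀ i, V i => f fun i => e i (x i)) = fun x => es T f fun i => e i (x i) := by
  funext x; simp only [es, avg_comp_equiv e]

lemma op_comp_equiv {V' : ι → Type} [∀ i, Fintype (V' i)] (e : ∀ i, V i ≃ V' i)
    (m : Finset ι → ℝ) (f : (∀ i, V' i) → ℝ) :
    op m (fun x : ∀ i, V i => f fun i => e i (x i)) = fun x => op m f fun i => e i (x i) := by
  funext x; simp only [op, es_comp_equiv e]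

lemma proj_comp_equiv {V' : ι → Type} [∀ i, Fintype (V' i)] (e : ∀ i, V i ≃ V' i)
    (F : Finset (Finset ι)) (f : (∀ i, V' i) → ℝ) :
    proj F (fun x : ∀ i, V i => f fun i => e i (x i)) = fun x => proj F f fun i => e i (x i) := by
  funext x; simp only [proj, es_comp_equiv e]

lemma proj_eq_op (F : Finset (Finset ι)) (f : (∀ i, V i) → ℝ) :
    proj F f = op (fun U => if U ∈ F then 1 else 0) f := by
  funext x; simp [proj, op, Finset.sum_ite_mem]

lemma es_eq_op (T : Finset ι) (f : (∀ i, V i) → ℝ) :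
    es T f = op (fun U => if U = T then 1 else 0) f := by
  funext x; simp [op]

lemma op_add (m : Finset ι → ℝ) (f g : (∀ i, V i) → ℝ) :
    op m (fun x => f x + g x) = fun x => op m f x + op m g x := by
  funext x; simp only [op, es_add, mul_add, Finset.sum_add_distrib]

lemma op_sub (m : Finset ι → ℝ) (f g : (∀ i, V i) → ℝ) :
    op m (fun x => f x - g x) = fun x => op m f x - op m g x := by
  funext x; simp only [op, es_sub, mul_sub, Finset.sum_sub_distrib]

lemma op_smul (m : Finset ι → ℝ) (c : ℝ) (f : (∀ i, V i) → ℝ) :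
    op m (fun x => c * f x) = fun x => c * op m f x := by
  funext x; simp only [op, es_smul, Finset.mul_sum]
  exact Finset.sum_congr rfl fun _ _ => by ring

lemma op_sum {κ : Type*} (m : Finset ι → ℝ) (s : Finset κ) (f : κ → (∀ i, V i) → ℝ) :
    op m (fun x => ∑ k ∈ s, f k x) = fun x => ∑ k ∈ s, op m (f k) x := by
  funext x; simp only [op, es_sum, Finset.mul_sum]; rw [Finset.sum_comm]

lemma op_symbol_add (m m' : Finset ι → ℝ) (f : (∀ i, V i) → ℝ) :
    op (fun U => m U + m' U) f = fun x => op m f x + op m' f x := by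
  funext x; simp only [op, add_mul, Finset.sum_add_distrib]

lemma op_symbol_smul (c : ℝ) (m : Finset ι → ℝ) (f : (∀ i, V i) → ℝ) :
    op (fun U => c * m U) f = fun x => c * op m f x := by
  funext x; simp only [op, Finset.mul_sum, mul_assoc]

lemma op_symbol_sum {κ : Type*} (s : Finset κ) (m : κ → Finset ι → ℝ) (f : (∀ i, V i) → ℝ) :
    op (fun U => ∑ k ∈ s, m k U) f = fun x => ∑ k ∈ s, op (m k) f x := by
  funext x; simp only [op, Finset.sum_mul]; rw [Finset.sum_comm]

lemma proj_add (F : Finset (Finset ι)) (f g : (∀ i, V i) → ℝ) :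
    proj F (fun x => f x + g x) = fun x => proj F f x + proj F g x := by
  simp only [proj_eq_op, op_add]

lemma proj_smul (F : Finset (Finset ι)) (c : ℝ) (f : (∀ i, V i) → ℝ) :
    proj F (fun x => c * f x) = fun x => c * proj F f x := by
  simp only [proj_eq_op, op_smul]

lemma proj_sum {κ : Type*} (F : Finset (Finset ι)) (s : Finset κ) (f : κ → (∀ i, V i) → ℝ) :
    proj F (fun x => ∑ k ∈ s, f k x) = fun x => ∑ k ∈ s, proj F (f k) x := by
  simp only [proj_eq_op, op_sum]

lemma proj_sdiff {F G : Finset (Finset ι)} (h : G ⊆ F) (f : (∀ i, V i) → ℝ) (x : ∀ i, V i) :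
    proj F f x = proj G f x + proj (F \ G) f x := by
  simp only [proj]; rw [← Finset.sum_sdiff h, add_comm]

lemma expect_mul_op (m : Finset ι → ℝ) (f g : (∀ i, V i) → ℝ) :
    𝔼 x, f x * op m g x = 𝔼 x, op m f x * g x := by
  simp only [op, Finset.mul_sum, Finset.sum_mul]
  rw [Finset.expect_sum_comm, Finset.expect_sum_comm]
  refine Finset.sum_congr rfl fun U _ => ?_
  have := expect_mul_es U f g
  simp only [mul_left_comm (f _), mul_assoc, ← Finset.mul_expect, this]

lemma expect_mul_proj (F : Finset (Finset ι)) (f g : (∀ i, V i) → ℝ) :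
    𝔼 x, f x * proj F g x = 𝔼 x, proj F f x * g x := by
  simp only [proj_eq_op, expect_mul_op]

variable [∀ i, Nonempty (V i)]

lemma sum_es (f : (∀ i, V i) → ℝ) (x : ∀ i, V i) : ∑ T, es T f x = f x := by
  have := sum_es_powerset univ f x
  rwa [Finset.powerset_univ, Finset.compl_univ, avg_empty] at this

lemma op_one (f : (∀ i, V i) → ℝ) : op (fun _ => 1) f = f := by
  funext x; simp only [op, one_mul, sum_es]

lemma avg_es_comm (S T : Finset ι) (f : (∀ i, V i) → ℝ) : avg S (es T f) = es T (avg S f) := by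
  funext x
  unfold es
  rw [avg_sum]
  simp only [avg_smul, avg_comm S]

lemma avg_single_es {i : ι} {T : Finset ι} (hi : i ∈ T) (f : (∀ i, V i) → ℝ) :
    avg {i} (es T f) = fun _ => 0 := by
  funext x
  rw [avg_es_comm, es_eq_mob, ← Finset.insert_erase hi, mob_insert _ (Finset.notMem_erase i T),
    sub_eq_zero]
  refine mob_congr fun U hU => ?_
  have hU' : i ∉ U := fun h => Finset.notMem_erase i T (hU h)
  rw [avg_avg, avg_avg]
  congr 1
  ext j
  by_cases hj : j = i <;> simp [hj]

lemma avg_es (S T : Finset ι) (f : (∀ i, V i) → ℝ) :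
    avg S (es T f) = if Disjoint T S then es T f else fun _ => 0 := by
  split_ifs with h
  · exact (depOn_es T f).avg_eq h
  · obtain ⟨i, hiT, hiS⟩ := Finset.not_disjoint_iff.1 h
    have : S = S ∪ {i} := by simp [hiS]
    rw [this, ← avg_avg, avg_single_es hiT, avg_zero]

lemma es_es (T U : Finset ι) (f : (∀ i, V i) → ℝ) :
    es T (es U f) = if T = U then es U f else fun _ => 0 := by
  funext x
  have h1 : es T (es U f) x = mob (fun W => (if U ⊆ W then 1 else 0) * es U f x) T := by
    rw [es_eq_mob]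
    refine mob_congr fun W _ => ?_
    rw [avg_es]
    by_cases hW : U ⊆ W
    · rw [if_pos (disjoint_compl_iff.2 hW), if_pos hW, one_mul]
    · rw [if_neg (mt disjoint_compl_iff.1 hW), if_neg hW, zero_mul]
  rw [h1, mob_mul_const, mob_ite_subset]
  split_ifs <;> simp

lemma es_op (T : Finset ι) (m : Finset ι → ℝ) (f : (∀ i, V i) → ℝ) :
    es T (op m f) = fun x => m T * es T f x := by
  unfold op
  rw [es_sum]
  funext x
  simp only [es_smul, es_es]
  rw [Finset.sum_eq_single T]
  · simp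
  · intro U _ hU; simp [Ne.symm hU]
  · simp

lemma op_op (m m' : Finset ι → ℝ) (f : (∀ i, V i) → ℝ) :
    op m (op m' f) = op (fun U => m U * m' U) f := by
  funext x
  conv_lhs => unfold op
  simp only [show (fun x => ∑ U, m' U * es U f x) = op m' f from rfl, es_op]
  simp only [op, mul_assoc]

omit [∀ i, Nonempty (V i)] in
lemma avg_eq_op (S : Finset ι) (f : (∀ i, V i) → ℝ) :
    avg S f = op (fun U => if Disjoint U S then 1 else 0) f := by
  funext x
  have := sum_es_powerset Sᶜ f x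
  rw [compl_compl] at this
  rw [← this]
  simp only [op, ite_mul, one_mul, zero_mul]
  rw [← Finset.sum_filter]
  refine Finset.sum_congr ?_ fun _ _ => rfl
  ext U
  simp [Finset.subset_compl_iff_disjoint_right]

lemma avg_op (S : Finset ι) (m : Finset ι → ℝ) (f : (∀ i, V i) → ℝ) :
    avg S (op m f) = op (fun U => if Disjoint U S then m U else 0) f := by
  rw [avg_eq_op, op_op]; simp only [ite_mul, one_mul, zero_mul]

lemma op_avg (S : Finset ι) (m : Finset ι → ℝ) (f : (∀ i, V i) → ℝ) :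
    op m (avg S f) = op (fun U => if Disjoint U S then m U else 0) f := by
  rw [avg_eq_op, op_op]; simp only [mul_ite, mul_one, mul_zero]

lemma avg_op_comm (S : Finset ι) (m : Finset ι → ℝ) (f : (∀ i, V i) → ℝ) :
    avg S (op m f) = op m (avg S f) := by rw [avg_op, op_avg]

lemma avg_proj_comm (S : Finset ι) (F : Finset (Finset ι)) (f : (∀ i, V i) → ℝ) :
    avg S (proj F f) = proj F (avg S f) := by simp only [proj_eq_op, avg_op_comm]

lemma es_proj (T : Finset ι) (F : Finset (Finset ι)) (f : (∀ i, V i) → ℝ) :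
    es T (proj F f) = if T ∈ F then es T f else fun _ => 0 := by
  rw [proj_eq_op, es_op]; split_ifs <;> simp

lemma op_proj (m : Finset ι → ℝ) (F : Finset (Finset ι)) (f : (∀ i, V i) → ℝ) :
    op m (proj F f) = op (fun U => if U ∈ F then m U else 0) f := by
  rw [proj_eq_op, op_op]; simp only [mul_ite, mul_one, mul_zero]

lemma proj_proj (F G : Finset (Finset ι)) (f : (∀ i, V i) → ℝ) :
    proj F (proj G f) = proj (F ∩ G) f := by
  rw [proj_eq_op, op_proj, proj_eq_op]
  congr 1; funext U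
  by_cases h1 : U ∈ F <;> by_cases h2 : U ∈ G <;> simp [h1, h2]

lemma DepOn.es_eq_zero {W T : Finset ι} {f : (∀ i, V i) → ℝ} (h : DepOn W f) (hT : ¬ T ⊆ W) :
    es T f = fun _ => 0 := by
  rw [← h.avg_eq disjoint_compl_right, ← avg_es_comm, avg_es, if_neg (mt disjoint_compl_iff.1 hT)]

lemma DepOn.op_congr {W : Finset ι} {f : (∀ i, V i) → ℝ} (h : DepOn W f) {m m' : Finset ι → ℝ}
    (hm : ∀ U ⊆ W, m U = m' U) : op m f = op m' f := by
  funext x
  refine Finset.sum_congr rfl fun U _ => ?_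
  by_cases hU : U ⊆ W
  · rw [hm U hU]
  · simp [h.es_eq_zero hU]

omit [∀ i, Nonempty (V i)] in
lemma depOn_op {W : Finset ι} {m : Finset ι → ℝ} (hm : ∀ U, ¬ U ⊆ W → m U = 0)
    (f : (∀ i, V i) → ℝ) : DepOn W (op m f) := by
  refine DepOn.sum fun U _ => ?_
  by_cases hU : U ⊆ W
  · exact ((depOn_es U f).mono hU).comp fun t => m U * t
  · simp only [hm U hU, zero_mul]; exact depOn_const W 0

lemma DepOn.op {W : Finset ι} {f : (∀ i, V i) → ℝ} (h : DepOn W f) (m : Finset ι → ℝ) :
    DepOn W (ES.op m f) := by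
  rw [h.op_congr (m' := fun U => if U ⊆ W then m U else 0) fun U hU => by simp [hU]]
  exact depOn_op (fun U hU => by simp [hU]) f

lemma DepOn.proj {W : Finset ι} {f : (∀ i, V i) → ℝ} (h : DepOn W f) (F : Finset (Finset ι)) :
    DepOn W (ES.proj F f) := by rw [proj_eq_op]; exact h.op _

/-! ### orthogonality and Parseval -/

lemma expect_es_mul_es (T U : Finset ι) (f g : (∀ i, V i) → ℝ) :
    𝔼 x, es T f x * es U g x = if T = U then 𝔼 x, es T f x * es T g x else 0 := by
  split_ifs with h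
  · rw [h]
  · rw [← expect_mul_es, es_es, if_neg h]; simp

lemma expect_op_mul_op (m m' : Finset ι → ℝ) (f g : (∀ i, V i) → ℝ) :
    𝔼 x, op m f x * op m' g x = ∑ U, m U * m' U * 𝔼 x, es U f x * es U g x := by
  simp only [op, Finset.sum_mul_sum]
  rw [Finset.expect_sum_comm]
  refine Finset.sum_congr rfl fun U _ => ?_
  rw [Finset.expect_sum_comm, Finset.sum_eq_single U]
  · rw [Finset.mul_expect]; exact Finset.expect_congr rfl fun x _ => by ring
  · intro W _ hW
    have := expect_es_mul_es U W f g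
    rw [if_neg (Ne.symm hW)] at this
    rw [← mul_zero (m U * m' W), ← this, Finset.mul_expect]
    exact Finset.expect_congr rfl fun x _ => by ring
  · simp

lemma parseval_op (m : Finset ι → ℝ) (f : (∀ i, V i) → ℝ) :
    𝔼 x, op m f x ^ 2 = ∑ U, m U ^ 2 * 𝔼 x, es U f x ^ 2 := by
  simp only [sq, expect_op_mul_op]

lemma parseval (f : (∀ i, V i) → ℝ) : 𝔼 x, f x ^ 2 = ∑ U, 𝔼 x, es U f x ^ 2 := by
  have := parseval_op (fun _ => 1) f
  simpa [op_one] using this

lemma parseval_proj (F : Finset (Finset ι)) (f : (∀ i, V i) → ℝ) :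
    𝔼 x, proj F f x ^ 2 = ∑ U ∈ F, 𝔼 x, es U f x ^ 2 := by
  rw [proj_eq_op, parseval_op]
  simp [Finset.sum_ite_mem]

omit [∀ i, Nonempty (V i)] in
lemma expect_sq_nonneg (f : (∀ i, V i) → ℝ) : 0 ≤ 𝔼 x, f x ^ 2 :=
  Finset.expect_nonneg fun _ _ => sq_nonneg _

lemma expect_sq_op_le {m m' : Finset ι → ℝ} (h : ∀ U, m U ^ 2 ≤ m' U ^ 2) (f : (∀ i, V i) → ℝ) :
    𝔼 x, op m f x ^ 2 ≤ 𝔼 x, op m' f x ^ 2 := by
  rw [parseval_op, parseval_op]
  exact Finset.sum_le_sum fun U _ => mul_le_mul_of_nonneg_right (h U) (expect_sq_nonneg _)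

/-- a multiplier bounded by `c` on `F` and vanishing off `F` -/
lemma expect_sq_op_le_proj {m : Finset ι → ℝ} {F : Finset (Finset ι)} {c : ℝ}
    (h0 : ∀ U, U ∉ F → m U = 0) (h : ∀ U ∈ F, m U ^ 2 ≤ c) (f : (∀ i, V i) → ℝ) :
    𝔼 x, op m f x ^ 2 ≤ c * 𝔼 x, proj F f x ^ 2 := by
  rw [parseval_op, parseval_proj, Finset.mul_sum,
    ← Finset.sum_subset (Finset.subset_univ F) fun U _ hU => by simp [h0 U hU]]
  exact Finset.sum_le_sum fun U hU => mul_le_mul_of_nonneg_right (h U hU) (expect_sq_nonneg _)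

lemma expect_sq_proj_mono {F G : Finset (Finset ι)} (h : F ⊆ G) (f : (∀ i, V i) → ℝ) :
    𝔼 x, proj F f x ^ 2 ≤ 𝔼 x, proj G f x ^ 2 := by
  rw [parseval_proj, parseval_proj]
  exact Finset.sum_le_sum_of_subset_of_nonneg h fun _ _ _ => expect_sq_nonneg _

lemma expect_sq_proj_le (F : Finset (Finset ι)) (f : (∀ i, V i) → ℝ) :
    𝔼 x, proj F f x ^ 2 ≤ 𝔼 x, f x ^ 2 := by
  rw [parseval_proj, parseval f]
  exact Finset.sum_le_sum_of_subset_of_nonneg (Finset.subset_univ F) fun _ _ _ => expect_sq_nonneg _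

lemma expect_es (T : Finset ι) (f : (∀ i, V i) → ℝ) :
    𝔼 x, es T f x = if T = ∅ then 𝔼 x, f x else 0 := by
  have h := expect_avg univ (es T f)
  rw [← h, avg_es]
  by_cases hT : T = ∅
  · subst hT; simp [es_empty]
  · have : ¬ Disjoint T univ := by
      rw [← Finset.compl_empty, disjoint_compl_iff]; simpa using hT
    simp [hT, this]

lemma expect_op (m : Finset ι → ℝ) (f : (∀ i, V i) → ℝ) : 𝔼 x, op m f x = m ∅ * 𝔼 x, f x := by
  unfold op
  rw [Finset.expect_sum_comm]
  simp only [← Finset.mul_expect, expect_es]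
  simp

lemma expect_proj {F : Finset (Finset ι)} (hF : ∅ ∈ F) (f : (∀ i, V i) → ℝ) :
    𝔼 x, proj F f x = 𝔼 x, f x := by
  rw [proj_eq_op, expect_op]; simp [hF]

lemma expect_proj_mul_self (F : Finset (Finset ι)) (f : (∀ i, V i) → ℝ) :
    𝔼 x, proj F f x * f x = 𝔼 x, proj F f x ^ 2 := by
  conv_lhs => rw [← Finset.inter_self F, ← proj_proj, ← expect_mul_proj]
  simp only [sq]

end Crest.Agent.N41.ES
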