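import Crest.Agent.N41.ES.Lift
import Crest.Agent.N41.Local.Norm

/-!
# Row 41, part B4: tensorised maximal correlation and the tail bound
-/

set_option autoImplicit false
open Finset
open scoped BigOperators

namespace Crest.Agent.N41.ES

open Local (Om tens)

section Tensor
open Matrix
variable {ι : Type} [Fintype ι] [DecidableEq ι]

/-- the quadratic form of a block kernel -/
def blk {A B : Type} [Fintype A] [Fintype B] (Q : A → A → ℝ) (P : A → B → ℝ) (N : B → B → ℝ)
    (g : A → ℝ) (G : B → ℝ) : ℝ :=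
  ∑ u, ∑ u', g u * g u' * Q u u' + 2 * ∑ u, ∑ w, g u * G w * P u w + ∑ w, ∑ w', G w * G w' * N w w'

lemma blk_eq {A B : Type} [Fintype A] [Fintype B] (Q : A → A → ℝ) (P : A → B → ℝ) (N : B → B → ℝ)
    (z : A ⊕ B → ℝ) :
    star z ⬝ᵥ (fromBlocks (of Q) (of P) (of fun w u => P u w) (of N) *ᵥ z) =
      blk Q P N (fun u => z (.inl u)) fun w => z (.inr w) := by
  simp only [blk, dotProduct, mulVec, star_trivial, Fintype.sum_sum_type, fromBlocks_apply₁₁,
    fromBlocks_apply₁₂, fromBlocks_apply₂₁, fromBlocks_apply₂₂, of_apply, mul_add, Finset.mul_sum,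
    Finset.sum_add_distrib]
  rw [Finset.sum_comm (f := fun w u => z (.inr w) * (P u w * z (.inl u)))]
  simp only [two_mul, Finset.sum_add_distrib, add_assoc]
  congr 1
  · exact Finset.sum_congr rfl fun _ _ => Finset.sum_congr rfl fun _ _ => by ring
  congr 1
  · exact Finset.sum_congr rfl fun _ _ => Finset.sum_congr rfl fun _ _ => by ring
  congr 1
  · exact Finset.sum_congr rfl fun _ _ => Finset.sum_congr rfl fun _ _ => by ring
  · exact Finset.sum_congr rfl fun _ _ => Finset.sum_congr rfl fun _ _ => by ring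

/-- positivity of block forms tensorises -/
lemma blk_tensor {A B : ι → Type} [∀ i, Fintype (A i)] [∀ i, Fintype (B i)]
    (Q : ∀ i, A i → A i → ℝ) (P : ∀ i, A i → B i → ℝ) (N : ∀ i, B i → B i → ℝ)
    (hQ : ∀ i u u', Q i u u' = Q i u' u) (hN : ∀ i w w', N i w w' = N i w' w)
    (h : ∀ i g G, 0 ≤ blk (Q i) (P i) (N i) g G) (g : (∀ i, A i) → ℝ) (G : (∀ i, B i) → ℝ) :
    0 ≤ blk (fun u u' => ∏ i, Q i (u i) (u' i)) (fun u w => ∏ i, P i (u i) (w i))
      (fun w w' => ∏ i, N i (w i) (w' i)) g G := by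
  let M : ∀ i, Matrix (A i ⊕ B i) (A i ⊕ B i) ℝ := fun i =>
    fromBlocks (of (Q i)) (of (P i)) (of fun w u => P i u w) (of (N i))
  have hM : ∀ i, (M i).PosSemidef := fun i => by
    refine PosSemidef.of_dotProduct_mulVec_nonneg ?_ fun z => ?_
    · ext u v
      rcases u with u | u <;> rcases v with v | v
      · simp [M, hQ i u]
      · simp [M]
      · simp [M]
      · simp [M, hN i u]
    · rw [blk_eq]; exact h i _ _
  let φ : ∀ i, ((∀ i, A i) ⊕ ∀ i, B i) → A i ⊕ B i := fun i => Sum.map (· i) (· i)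
  have h1 := Local.psd_prod univ (fun i => (M i).submatrix (φ i) (φ i))
    fun i _ => (hM i).submatrix _
  have h2 : (Matrix.of fun u v => ∏ i, (M i).submatrix (φ i) (φ i) u v) =
      fromBlocks (of fun u u' => ∏ i, Q i (u i) (u' i)) (of fun u w => ∏ i, P i (u i) (w i))
        (of fun w u => ∏ i, P i (u i) (w i)) (of fun w w' => ∏ i, N i (w i) (w' i)) := by
    ext u v
    rcases u with u | u <;> rcases v with v | v <;> simp [M, φ]
  have h3 := h1.dotProduct_mulVec_nonneg (Sum.elim g G)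
  rw [h2, blk_eq] at h3
  exact h3

end Tensor

section Kernel

open Classical in
/-- the joint law of two maps -/
noncomputable def pk {X A B : Type} [Fintype X] (n : X → ℝ) (a : X → A) (b : X → B) (u : A)
    (w : B) : ℝ := ∑ x, n x * ((if a x = u then 1 else 0) * if b x = w then 1 else 0)

lemma sum_pk {X A B : Type} [Fintype X] [Fintype A] [Fintype B] (n : X → ℝ) (a : X → A)
    (b : X → B) (F : A → ℝ) (G : B → ℝ) :
    ∑ u, ∑ w, F u * G w * pk n a b u w = ∑ x, n x * (F (a x) * G (b x)) := by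
  classical
  simp only [pk, Finset.mul_sum]
  rw [Finset.sum_congr rfl fun u _ => Finset.sum_comm, Finset.sum_comm]
  refine Finset.sum_congr rfl fun x _ => ?_
  simp [mul_ite, mul_comm]

lemma pk_symm {X A : Type} [Fintype X] (n : X → ℝ) (a : X → A) (u w : A) :
    pk n a a u w = pk n a a w u :=
  Finset.sum_congr rfl fun _ _ => by ring

variable {ι : Type} [Fintype ι] [DecidableEq ι] {V : ι → Type} [∀ i, Fintype (V i)]

lemma pk_tens {D : ℕ} {A B : ι → Type} (ν : ∀ i, (Om D → V i) → ℝ) (a : ∀ i, (Om D → V i) → A i)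
    (b : ∀ i, (Om D → V i) → B i) (u : ∀ i, A i) (w : ∀ i, B i) :
    ∏ i, pk (ν i) (a i) (b i) (u i) (w i) =
      pk (tens ν) (fun x i => a i fun c => x c i) (fun x i => b i fun c => x c i) u w := by
  classical
  simp only [pk]
  rw [← Local.sum_tens_prod]
  refine Finset.sum_congr rfl fun x _ => ?_
  rw [Finset.prod_mul_distrib, Finset.prod_mul_distrib, Finset.prod_boole, Finset.prod_boole]
  simp only [Finset.mem_univ, true_imp_iff, funext_iff, tens]

open Classical in
/-- normalised delta function -/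
noncomputable def dl {W : Type} [Fintype W] (s t : W) : ℝ :=
  if t = s then (Fintype.card W : ℝ) else 0

lemma dl_symm {W : Type} [Fintype W] (s t : W) : dl s t = dl t s := by
  by_cases h : s = t
  · rw [h]
  · simp [dl, h, Ne.symm h]

lemma expect_mul_dl {W : Type} [Fintype W] (g : W → ℝ) (s : W) : 𝔼 t, g t * dl s t = g s := by
  classical
  have : Nonempty W := ⟨s⟩
  have hc : (Fintype.card W : ℝ) ≠ 0 := by exact_mod_cast Fintype.card_ne_zero
  rw [Fintype.expect_eq_sum_div_card]
  simp [dl, hc]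

variable [∀ i, Nonempty (V i)]

lemma avg_kernel (U : Finset ι) (h : (∀ i, V i) → ℝ) (v : ∀ i, V i) :
    avg Uᶜ h v = 𝔼 v', h v' * ∏ i ∈ U, dl (v i) (v' i) := by
  have hK : DepOn U fun v' : ∀ i, V i => ∏ i ∈ U, dl (v i) (v' i) :=
    fun x y hxy => Finset.prod_congr rfl fun i hi => by rw [hxy i hi]
  have hA : DepOn U (avg Uᶜ h) := by simpa using depOn_avg Uᶜ h
  have h1 : 𝔼 v' : ∀ i, V i, ∏ i ∈ U, dl (v i) (v' i) = 1 := by
    simp only [← Finset.prod_ite_mem_eq U]
    rw [expect_prod fun i t => if i ∈ U then dl (v i) t else 1]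
    refine Finset.prod_eq_one fun i _ => ?_
    split_ifs
    · simpa using expect_mul_dl (fun _ => 1) (v i)
    · simp
  rw [← expect_avg Uᶜ fun v' => h v' * ∏ i ∈ U, dl (v i) (v' i),
    avg_mul_right hK disjoint_compl_right, ← mul_one (avg Uᶜ h v), ← h1, Finset.mul_expect]
  refine Finset.expect_congr rfl fun v' _ => ?_
  by_cases hv : ∀ i ∈ U, v i = v' i
  · rw [hA v v' hv]
  · push Not at hv
    obtain ⟨i, hi, hne⟩ := hv
    rw [Finset.prod_eq_zero hi (by simp [dl, hne.symm]), mul_zero, mul_zero]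

/-- the kernel of an Efron–Stein part -/
lemma es_kernel (T : Finset ι) (h : (∀ i, V i) → ℝ) (v : ∀ i, V i) :
    es T h v = 𝔼 v', h v' * ∏ i ∈ T, (dl (v i) (v' i) - 1) := by
  simp only [sub_eq_add_neg, Finset.prod_add, Finset.prod_const, Finset.mul_sum, es, avg_kernel]
  rw [Finset.expect_sum_comm]
  refine Finset.sum_congr rfl fun U _ => ?_
  rw [Finset.mul_expect]
  exact Finset.expect_congr rfl fun v' _ => by ring

/-- the quadratic form of the squared noise operator -/
lemma noise_form (c : ι → ℝ) (h : (∀ i, V i) → ℝ) :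
    𝔼 v, 𝔼 v', h v * h v' * ∏ i, (1 + c i * (dl (v i) (v' i) - 1)) =
      ∑ T : Finset ι, (∏ i ∈ T, c i) * 𝔼 v, es T h v ^ 2 := by
  have h1 : ∀ v : ∀ i, V i, 𝔼 v', h v * h v' * ∏ i, (1 + c i * (dl (v i) (v' i) - 1)) =
      ∑ T : Finset ι, (∏ i ∈ T, c i) * (h v * es T h v) := fun v => by
    simp only [Finset.prod_one_add, Finset.powerset_univ, Finset.prod_mul_distrib, Finset.mul_sum,
      es_kernel]
    rw [Finset.expect_sum_comm]
    refine Finset.sum_congr rfl fun T _ => ?_
    rw [Finset.mul_expect, Finset.mul_expect]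
    exact Finset.expect_congr rfl fun v' _ => by ring
  simp only [h1]
  rw [Finset.expect_sum_comm]
  refine Finset.sum_congr rfl fun T _ => ?_
  rw [← Finset.mul_expect]
  congr 1
  have h2 := expect_mul_es T h (es T h)
  rw [es_es, if_pos rfl] at h2
  simp only [h2, sq]

end Kernel

section Local
variable {W : Type} [Fintype W] [Nonempty W]

/-- the kernel of the squared noise operator at one coordinate -/
noncomputable def qk (c : ℝ) (s t : W) : ℝ := (1 + c * (dl s t - 1)) / (Fintype.card W : ℝ) ^ 2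

omit [Nonempty W] in
lemma sum_sum_div (φ : W → W → ℝ) :
    ∑ s, ∑ t, φ s t / (Fintype.card W : ℝ) ^ 2 = 𝔼 s, 𝔼 t, φ s t := by
  simp only [Fintype.expect_eq_sum_div_card, Finset.sum_div, div_div, sq]

lemma qk_form (c : ℝ) (g : W → ℝ) :
    ∑ s, ∑ t, g s * g t * qk c s t = (𝔼 s, g s) ^ 2 + c * 𝔼 s, (g s - 𝔼 t, g t) ^ 2 := by
  simp only [qk, ← mul_div_assoc, sum_sum_div]
  have h1 : ∀ s, 𝔼 t, g s * g t * (1 + c * (dl s t - 1)) =
      (1 - c) * (𝔼 t, g t) * g s + c * g s ^ 2 := fun s => by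
    have : ∀ t, g s * g t * (1 + c * (dl s t - 1)) =
        (1 - c) * g s * g t + c * g s * (g t * dl s t) := fun t => by ring
    simp only [this, Finset.expect_add_distrib, ← Finset.mul_expect, expect_mul_dl]
    ring
  have h2 : ∀ s, (g s - 𝔼 t, g t) ^ 2 = g s ^ 2 - 2 * (𝔼 t, g t) * g s + (𝔼 t, g t) ^ 2 :=
    fun s => by ring
  simp only [h1, h2, Finset.expect_add_distrib, Finset.expect_sub_distrib, ← Finset.mul_expect,
    Fintype.expect_const]
  ring

end Local

lemma law_blk {D : ℕ} {W : Type} [AddCommGroup W] [Fintype W] {ν : (Om D → W) → ℝ} {ρ : ℝ}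
    (h : Law ν ρ) (ω : Om D) (g : W → ℝ) (G : (Om D → W) → ℝ) :
    0 ≤ blk (qk (ρ ^ 2)) (pk ν (fun x => x ω) fun x => Function.update x ω 0)
      (pk ν (fun x => Function.update x ω 0) fun x => Function.update x ω 0) g G := by
  unfold blk
  rw [qk_form, sum_pk, sum_pk]
  set m := 𝔼 s, g s with hm
  set μ := ∑ x, ν x * G (Function.update x ω 0) with hμ
  have h0 : ∑ v, (g v - m) = 0 := by
    have hc : (Fintype.card W : ℝ) ≠ 0 := by exact_mod_cast Fintype.card_ne_zero
    rw [Finset.sum_sub_distrib, Finset.sum_const, hm, Fintype.expect_eq_sum_div_card,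
      Finset.card_univ, nsmul_eq_mul, mul_div_cancel₀ _ hc, sub_self]
  have h1 := h.maxcorr ω (fun v => g v - m) (fun x => G (Function.update x ω 0) - μ) h0
    fun x v => by simp
  have h2 : ∑ x, ν x * g (x ω) = m := by rw [Local.marginal h.transl, h.sum_one, one_mul]
  have h3 : ∑ x, ν x * ((g (x ω) - m) * (G (Function.update x ω 0) - μ)) =
      ∑ x, ν x * (g (x ω) * G (Function.update x ω 0)) - m * μ := by
    have : ∀ x, ν x * ((g (x ω) - m) * (G (Function.update x ω 0) - μ)) =
        ν x * (g (x ω) * G (Function.update x ω 0)) - μ * (ν x * g (x ω)) -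
          m * (ν x * G (Function.update x ω 0)) + m * μ * ν x := fun x => by ring
    simp only [this, Finset.sum_add_distrib, Finset.sum_sub_distrib, ← Finset.mul_sum, h2, ← hμ,
      h.sum_one]
    ring
  have h4 : ∑ x, ν x * (G (Function.update x ω 0) - μ) ^ 2 =
      ∑ x, ν x * (G (Function.update x ω 0) * G (Function.update x ω 0)) - μ ^ 2 := by
    have : ∀ x, ν x * (G (Function.update x ω 0) - μ) ^ 2 =
        ν x * (G (Function.update x ω 0) * G (Function.update x ω 0)) -
          2 * μ * (ν x * G (Function.update x ω 0)) + μ ^ 2 * ν x := fun x => by ring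
    simp only [this, Finset.sum_add_distrib, Finset.sum_sub_distrib, ← Finset.mul_sum, ← hμ,
      h.sum_one]
    ring
  have h5 : 0 ≤ ∑ x, ν x * (G (Function.update x ω 0) - μ) ^ 2 :=
    Finset.sum_nonneg fun x _ => mul_nonneg (h.nonneg x) (sq_nonneg _)
  have h6 : 0 ≤ ρ ^ 2 * 𝔼 s, (g s - m) ^ 2 :=
    mul_nonneg (sq_nonneg _) (Finset.expect_nonneg fun _ _ => sq_nonneg _)
  rw [h3] at h1
  rw [h4] at h1 h5
  generalize ρ ^ 2 * 𝔼 s, (g s - m) ^ 2 = a at h1 h6 ⊢
  generalize ∑ x, ν x * (g (x ω) * G (Function.update x ω 0)) = b at h1 ⊢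
  generalize ∑ x, ν x * (G (Function.update x ω 0) * G (Function.update x ω 0)) = c at h1 h5 ⊢
  have h7 : (2 * (b - m * μ)) ^ 2 ≤ (a + (c - μ ^ 2)) ^ 2 := by
    nlinarith [sq_nonneg (a - (c - μ ^ 2))]
  have h8 := (abs_le_of_sq_le_sq' h7 (by linarith)).1
  nlinarith [sq_nonneg (m + μ)]

/-- **tensorised maximal correlation** -/
theorem tens_maxcorr {D : ℕ} {ι : Type} [Fintype ι] [DecidableEq ι] {V : ι → Type}
    [∀ i, AddCommGroup (V i)] [∀ i, Fintype (V i)] {ν : ∀ i, (Om D → V i) → ℝ} {ρ : ι → ℝ}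
    (h : ∀ i, Law (ν i) (ρ i)) (ω : Om D) (g : (∀ i, V i) → ℝ) (G : (Om D → ∀ i, V i) → ℝ)
    (hG : ∀ x v, G (Function.update x ω v) = G x) :
    (∑ x, tens ν x * (g (x ω) * G x)) ^ 2 ≤
      (∑ T : Finset ι, (∏ i ∈ T, ρ i ^ 2) * 𝔼 v, es T g v ^ 2) * ∑ x, tens ν x * G x ^ 2 := by
  have hR : ∀ x : Om D → ∀ i, V i,
      G (fun c i => Function.update (fun c => x c i) ω 0 c) = G x := fun x => by
    rw [← hG x 0]
    congr 1
    funext c i
    by_cases hc : c = ω
    · subst hc; simp
    · simp [hc]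
  have key : ∀ t : ℝ, 0 ≤ (∑ T : Finset ι, (∏ i ∈ T, ρ i ^ 2) * 𝔼 v, es T g v ^ 2) * (t * t) +
      2 * (∑ x, tens ν x * (g (x ω) * G x)) * t + ∑ x, tens ν x * G x ^ 2 := fun t => by
    have h1 := blk_tensor (fun i => qk (ρ i ^ 2))
      (fun i => pk (ν i) (fun x => x ω) fun x => Function.update x ω 0)
      (fun i => pk (ν i) (fun x => Function.update x ω 0) fun x => Function.update x ω 0)
      (fun i u u' => by simp only [qk, dl_symm u]) (fun i => pk_symm _ _)
      (fun i => law_blk (h i) ω) (fun v => t * g v) fun y => G fun c i => y i c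
    unfold blk at h1
    simp only [pk_tens, sum_pk, hR] at h1
    simp only [qk, Finset.prod_div_distrib, Finset.prod_pow, ← Nat.cast_prod, ← Fintype.card_pi,
      ← mul_div_assoc, sum_sum_div, noise_form, es_smul, mul_pow, ← Finset.mul_expect] at h1
    convert h1 using 2
    · congr 1
      · rw [Finset.sum_mul]
        exact Finset.sum_congr rfl fun T _ => by rw [Finset.prod_pow]; ring
      · rw [mul_assoc, Finset.sum_mul]
        exact congrArg _ (Finset.sum_congr rfl fun x _ => by ring)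
    · exact Finset.sum_congr rfl fun x _ => by ring
  have := discrim_le_zero key
  rw [discrim] at this
  nlinarith

/-- **Module B4** -/
theorem tail : TailStmt := by
  intro D ι _ _ V _ _ ν ρ _ h ω₀ g f F η B hg hη hF hB hm
  have hr : 1 ≤ 6 ^ D := Nat.one_le_pow _ _ (by norm_num)
  have h1 := tens_maxcorr h ω₀ (g ω₀) (fun x => ∏ c ∈ univ.erase ω₀, g c (x c)) fun x v =>
    Finset.prod_congr rfl fun c hc => by rw [Function.update_of_ne (Finset.ne_of_mem_erase hc)]
  rw [← Local.Lam_eq_slot] at h1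
  have h2 : 𝔼 v, g ω₀ v ^ 2 ≤ B := by
    have h3 : ∀ v, 1 + ((6 ^ D : ℕ) : ℝ) * (g ω₀ v ^ 2 - 1) ≤ g ω₀ v ^ (2 * 6 ^ D) := fun v => by
      rw [pow_mul]
      exact one_add_mul_sub_le_pow (by nlinarith [sq_nonneg (g ω₀ v)]) _
    have h4 := (Finset.expect_le_expect (s := univ) fun v _ => h3 v).trans (hm ω₀)
    simp only [Finset.expect_add_distrib, Finset.expect_sub_distrib, ← Finset.mul_expect,
      Fintype.expect_const] at h4
    have h5 : (1 : ℝ) ≤ ((6 ^ D : ℕ) : ℝ) := by exact_mod_cast hr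
    by_contra hc
    push Not at hc
    nlinarith
  have h3 : ∑ T : Finset ι, (∏ i ∈ T, ρ i ^ 2) * 𝔼 v, es T (g ω₀) v ^ 2 ≤ η ^ 2 * B := by
    refine le_trans ?_ (mul_le_mul_of_nonneg_left h2 (sq_nonneg η))
    rw [parseval (g ω₀), Finset.mul_sum]
    refine Finset.sum_le_sum fun T _ => ?_
    by_cases hT : T ∈ F
    · exact mul_le_mul_of_nonneg_right (hF T hT) (expect_sq_nonneg _)
    · simp [hg, es_proj, hT]
  have h4 : ∑ x, tens ν x * (∏ c ∈ univ.erase ω₀, g c (x c)) ^ 2 ≤ B := by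
    have h5 := Local.tens_abs_Lam_le h (Function.update (fun c v => g c v ^ 2) ω₀ fun _ => 1)
      (B := B) fun c => by
        by_cases hc : c = ω₀
        · subst hc; simpa using hB
        · simpa [Function.update_of_ne hc, ← pow_mul] using hm c
    refine le_trans (le_of_eq ?_) (le_of_abs_le h5)
    rw [Local.Lam_eq_slot _ _ ω₀]
    refine Finset.sum_congr rfl fun x _ => ?_
    rw [Function.update_self, one_mul, ← Finset.prod_pow]
    exact congrArg _ (Finset.prod_congr rfl fun c hc => by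
      rw [Function.update_of_ne (Finset.ne_of_mem_erase hc)])
  refine abs_le_of_sq_le_sq' (h1.trans ?_) (by positivity) |> abs_le.2
  calc _ ≤ (η ^ 2 * B) * B := mul_le_mul h3 h4 (Finset.sum_nonneg fun x _ =>
        mul_nonneg (Local.tens_nonneg h x) (sq_nonneg _)) (by positivity)
    _ = (η * B) ^ 2 := by ring

end Crest.Agent.N41.ES
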